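import Vale.Agent.P092.H678.P.Eu
import Vale.Agent.P092.UN.St

/-!
P092 (helper678), block [P-LAT2].  Part 5: the centre and the conjugacy classes of `Sp_{2n}(A)`, `A` an
infinite domain with `2 ≠ 0`.
-/

set_option linter.all false

open Matrix

namespace Vale.Agent.P092.H678.P

open Vale.Agent.P092.H759 (om om_eq om_add_left om_add_right om_smul_left om_smul_right om_neg_left
  om_neg_right om_sub_left om_sub_right om_swap om_self om_zero_left om_zero_right om_single_inr
  om_single_inl om_mulVec' tS tS_mulVec tS_conj tS_add tS_smul tS_trans mul_mulVec one_mulVec'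
  inv_mulVec mulVec_inv sp_ext mp mp_mulVec neg1 neg1_mulVec neg1_inv)

section vec

variable {l : Type} [Fintype l] [DecidableEq l] {A : Type} [CommRing A] [IsDomain A]

theorem exists_om {v : l ⊕ l → A} (hv : v ≠ 0) : ∃ y, om v y ≠ 0 := by
  by_contra hcon
  push Not at hcon
  apply hv
  funext i
  rcases i with i | i
  · have := hcon (Pi.single (Sum.inr i) 1)
    rw [om_swap, om_single_inr, neg_eq_zero] at this
    exact this
  · have := hcon (Pi.single (Sum.inl i) 1)
    rw [om_swap, om_single_inl, neg_neg] at this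
    exact this

theorem smul_cancel {a : A} (ha : a ≠ 0) {u v : l ⊕ l → A} (h : a • u = a • v) : u = v := by
  funext i
  exact mul_left_cancel₀ ha (congrFun h i)

theorem dbl {x : l ⊕ l → A} (h2 : (2 : A) ≠ 0) (hx : x + x = 0) : x = 0 := by
  apply smul_cancel h2
  rw [two_smul, hx, smul_zero]

theorem eq_of_om {u v : l ⊕ l → A} (h : ∀ z, om u z • u = om v z • v) : u = v ∨ u = -v := by
  by_cases hv : v = 0
  · left
    by_contra hne
    have hu : u ≠ 0 := fun h0 => hne (h0.trans hv.symm)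
    obtain ⟨y, hy⟩ := exists_om hu
    have h1 := h y
    rw [hv, smul_zero] at h1
    rw [← smul_zero (om u y)] at h1
    exact hu (smul_cancel hy h1)
  · obtain ⟨z, hz⟩ := exists_om hv
    have h1 := h z
    have h2 : om u z * om u z = om v z * om v z := by
      have := congrArg (fun w => om w z) h1
      simpa only [om_smul_left] using this
    rcases mul_self_eq_mul_self_iff.1 h2 with h3 | h3
    · left
      rw [h3] at h1
      exact smul_cancel hz h1
    · right
      rw [h3, neg_smul, neg_eq_iff_eq_neg, ← smul_neg] at h1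
      exact smul_cancel hz h1

theorem of_tS {c : A} (hc : c ≠ 0) {u v : l ⊕ l → A} (h : tS u c = tS v c) : u = v ∨ u = -v := by
  refine eq_of_om fun z => ?_
  have h1 := congrArg (fun B : symplecticGroup l A => B.1 *ᵥ z) h
  simp only [tS_mulVec] at h1
  have h2 := add_left_cancel h1
  rw [mul_smul, mul_smul] at h2
  exact smul_cancel hc h2

theorem tS_tS (v : l ⊕ l → A) (c : A) (y : l ⊕ l → A) :
    (tS v c).1 *ᵥ ((tS v c).1 *ᵥ y) = y + (c * om v y) • v + (c * om v y) • v := by
  rw [tS_mulVec, tS_mulVec, om_add_right, om_smul_right, om_self, mul_zero, add_zero]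

theorem of_tS_neg (h2 : (2 : A) ≠ 0) {c : A} {u v : l ⊕ l → A} (h : tS u c = neg1 l A * tS v c)
    (y : l ⊕ l → A) : y = 0 := by
  have h1 : ∀ y, (tS u c).1 *ᵥ y = -((tS v c).1 *ᵥ y) := fun y => by
    rw [h, mul_mulVec, neg1_mulVec]
  have h3 : (tS u c).1 *ᵥ ((tS u c).1 *ᵥ y) = (tS v c).1 *ᵥ ((tS v c).1 *ᵥ y) := by
    rw [h1, h1, Matrix.mulVec_neg, neg_neg]
  rw [tS_tS, tS_tS, add_assoc, add_assoc] at h3
  have h4 := add_left_cancel h3
  have h5 : (c * om u y) • u = (c * om v y) • v := by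
    have h6 : ((c * om u y) • u - (c * om v y) • v) + ((c * om u y) • u - (c * om v y) • v) = 0 := by
      have : ((c * om u y) • u - (c * om v y) • v) + ((c * om u y) • u - (c * om v y) • v) =
        ((c * om u y) • u + (c * om u y) • u) - ((c * om v y) • v + (c * om v y) • v) := by abel
      rw [this, h4, sub_self]
    exact sub_eq_zero.1 (dbl h2 h6)
  have h6 := h1 y
  have h7 : (tS u c).1 *ᵥ y = (tS v c).1 *ᵥ y := by
    rw [tS_mulVec, tS_mulVec, h5]
  rw [h7] at h6
  have h8 : (tS v c).1 *ᵥ y = 0 := dbl h2 (by nth_rw 2 [h6]; exact add_neg_cancel _)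
  rw [← inv_mulVec (tS v c) y, h8, Matrix.mulVec_zero]

/-- a matrix which moves every vector to a multiple by a sign is `1` or `-1` -/
theorem of_pm (h2 : (2 : A) ≠ 0) {g : symplecticGroup l A}
    (hg : ∀ v, g.1 *ᵥ v = v ∨ g.1 *ᵥ v = -v) : g = 1 ∨ g = neg1 l A := by
  by_contra hcon
  push Not at hcon
  obtain ⟨u, hu⟩ : ∃ u, g.1 *ᵥ u ≠ u := by
    by_contra h
    push Not at h
    exact hcon.1 (sp_ext fun y => by rw [h, one_mulVec'])
  obtain ⟨w, hw⟩ : ∃ w, g.1 *ᵥ w ≠ -w := by
    by_contra h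
    push Not at h
    exact hcon.2 (sp_ext fun y => by rw [h, neg1_mulVec])
  have hu' := (hg u).resolve_left hu
  have hw' := (hg w).resolve_right hw
  rcases hg (u + w) with h | h
  · rw [Matrix.mulVec_add, hu', hw'] at h
    have h3 : u + u = 0 := by
      have h4 : -u + w - w + u = u + w - w + u := by rw [h]
      have h5 : -u + w - w + u = 0 := by abel
      have h6 : u + w - w + u = u + u := by abel
      rw [h5, h6] at h4
      exact h4.symm
    apply hu
    rw [hu', dbl h2 h3, neg_zero]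
  · rw [Matrix.mulVec_add, hu', hw'] at h
    have h3 : w + w = 0 := by
      have h4 : -u + w + u + w = -(u + w) + u + w := by rw [h]
      have h5 : -u + w + u + w = w + w := by abel
      have h6 : -(u + w) + u + w = 0 := by abel
      rw [h5, h6] at h4
      exact h4
    apply hw
    rw [hw', dbl h2 h3, neg_zero]

theorem neg1_comm (g : symplecticGroup l A) : neg1 l A * g = g * neg1 l A := by
  refine sp_ext fun y => ?_
  rw [mul_mulVec, mul_mulVec, neg1_mulVec, neg1_mulVec, Matrix.mulVec_neg]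

/-- the centre of `Sp_{2n}(A)` -/
theorem of_mem_center (h2 : (2 : A) ≠ 0) {g : symplecticGroup l A}
    (hg : g ∈ Subgroup.center (symplecticGroup l A)) : g = 1 ∨ g = neg1 l A := by
  refine of_pm h2 fun v => ?_
  refine of_tS one_ne_zero (c := (1 : A)) ?_
  rw [← tS_conj, (Subgroup.mem_center_iff.1 hg (tS v 1)).symm, mul_inv_cancel_right]

theorem mem_center_of {g : symplecticGroup l A} (h : g = 1 ∨ g = neg1 l A) :
    g ∈ Subgroup.center (symplecticGroup l A) := by
  rcases h with rfl | rfl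
  · exact Subgroup.one_mem _
  · exact Subgroup.mem_center_iff.2 fun a => (neg1_comm a).symm

theorem tS_zero (v : l ⊕ l → A) : tS v (0 : A) = 1 := by
  refine sp_ext fun y => ?_
  rw [tS_mulVec, zero_mul, zero_smul, add_zero, one_mulVec']

theorem tS_neg (v : l ⊕ l → A) (c : A) : tS v (-c) = (tS v c)⁻¹ := by
  rw [eq_inv_iff_mul_eq_one, tS_add, neg_add_cancel, tS_zero]

/-- elements with finitely many conjugates modulo the centre -/
theorem of_finite (h2 : (2 : A) ≠ 0) (L : Subgroup (symplecticGroup l A))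
    (hL : ∀ v : l ⊕ l → A, {c : A | tS v c ∈ L}.Infinite) {g : symplecticGroup l A}
    (hfin : {y : symplecticGroup l A ⧸ Subgroup.center (symplecticGroup l A) | ∃ d ∈ L,
      y = QuotientGroup.mk' _ (d * g * d⁻¹)}.Finite) : g = 1 ∨ g = neg1 l A := by
  refine of_pm h2 fun v => ?_
  obtain ⟨q, hq⟩ : ∃ q : symplecticGroup l A →*
      symplecticGroup l A ⧸ Subgroup.center (symplecticGroup l A),
      q = QuotientGroup.mk' (Subgroup.center (symplecticGroup l A)) := ⟨_, rfl⟩
  obtain ⟨F, hF⟩ : ∃ F : A → symplecticGroup l A ⧸ Subgroup.center (symplecticGroup l A),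
      ∀ c, F c = q (tS v c * g * (tS v c)⁻¹) := ⟨_, fun _ => rfl⟩
  have hmap : Set.MapsTo F {c : A | tS v c ∈ L}
      {y : symplecticGroup l A ⧸ Subgroup.center (symplecticGroup l A) | ∃ d ∈ L,
      y = QuotientGroup.mk' _ (d * g * d⁻¹)} := fun c hc => ⟨tS v c, hc, by rw [hF, hq]⟩
  obtain ⟨c, hc, c', hc', hne, he⟩ := (hL v).exists_ne_map_eq_of_mapsTo hmap hfin
  rw [hF, hF] at he
  obtain ⟨T, hT⟩ : ∃ T, T = tS v (c - c') := ⟨_, rfl⟩
  have hT1 : T = (tS v c')⁻¹ * tS v c := by
    rw [hT, sub_eq_neg_add, ← tS_add, tS_neg]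
  have he2 : q (T * g * T⁻¹) = q g := by
    have e1 : T * g * T⁻¹ = (tS v c')⁻¹ * (tS v c * g * (tS v c)⁻¹) * tS v c' := by
      rw [hT1]
      group
    have e2 : g = (tS v c')⁻¹ * (tS v c' * g * (tS v c')⁻¹) * tS v c' := by group
    rw [e1]
    nth_rw 2 [e2]
    simp only [map_mul, map_inv] at he ⊢
    rw [he]
  obtain ⟨z, hz⟩ : ∃ z, z = g⁻¹ * (T * g * T⁻¹) := ⟨_, rfl⟩
  have hzc : z ∈ Subgroup.center (symplecticGroup l A) := by
    rw [hz]
    rw [hq] at he2
    exact QuotientGroup.eq.1 he2.symm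
  have h4 : tS ((g⁻¹).1 *ᵥ v) (c - c') = z * tS v (c - c') := by
    rw [← tS_conj, ← hT, hz, inv_inv]
    group
  have hd : c - c' ≠ 0 := sub_ne_zero.2 hne
  rcases of_mem_center h2 hzc with h5 | h5
  · rw [h5, one_mul] at h4
    have hv : v = g.1 *ᵥ ((g⁻¹).1 *ᵥ v) := (mulVec_inv g v).symm
    rcases of_tS hd h4 with h6 | h6
    · left
      rw [h6] at hv
      exact hv.symm
    · right
      rw [h6, Matrix.mulVec_neg] at hv
      nth_rw 2 [hv]
      rw [neg_neg]
  · rw [h5] at h4
    left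
    rw [of_tS_neg h2 h4 (g.1 *ᵥ v), of_tS_neg h2 h4 v]

/-- subgroups of finite index contain many transvections -/
theorem infinite_tS [Infinite A] (L : Subgroup (symplecticGroup l A)) [L.FiniteIndex]
    (v : l ⊕ l → A) : {c : A | tS v c ∈ L}.Infinite := by
  haveI : Finite (symplecticGroup l A ⧸ L) := Subgroup.finite_quotient_of_finiteIndex
  obtain ⟨y, hy⟩ := Finite.exists_infinite_fiber
    (fun c : A => ((tS v c : symplecticGroup l A) : symplecticGroup l A ⧸ L))
  have hinf : ((fun c : A => ((tS v c : symplecticGroup l A) : symplecticGroup l A ⧸ L)) ⁻¹'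
      {y}).Infinite := Set.infinite_coe_iff.1 hy
  obtain ⟨c₀, hc₀⟩ := hinf.nonempty
  have hinj : Function.Injective fun c : A => c - c₀ := fun a b hab => sub_left_injective hab
  refine (hinf.image hinj.injOn).mono ?_
  rintro _ ⟨c, hc, rfl⟩
  have h1 : ((tS v c₀ : symplecticGroup l A) : symplecticGroup l A ⧸ L) = tS v c := by
    rw [Set.mem_preimage, Set.mem_singleton_iff] at hc hc₀
    rw [hc₀, hc]
  have h2 := QuotientGroup.eq.1 h1
  show tS v (c - c₀) ∈ L
  rw [sub_eq_neg_add, ← tS_add, tS_neg]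
  exact h2

/-- **`PSp_{2n}(A)` is ICC.** -/
theorem icc_psp (h2 : (2 : A) ≠ 0) [Infinite A] :
    UN.ICC (symplecticGroup l A ⧸ Subgroup.center (symplecticGroup l A)) := by
  intro y hy hfin
  obtain ⟨g, rfl⟩ := QuotientGroup.mk'_surjective _ y
  apply hy
  refine (QuotientGroup.eq_one_iff _).2 (mem_center_of ?_)
  refine of_finite h2 ⊤ (fun v => infinite_tS ⊤ v) (hfin.subset ?_)
  rintro _ ⟨d, -, rfl⟩
  exact ⟨QuotientGroup.mk' _ d, by rw [map_mul, map_mul, map_inv]⟩

/-- **Subgroups of finite index of `Sp_{2n}(A)` without `-1` are ICC.** -/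
theorem icc_of_finiteIndex (h2 : (2 : A) ≠ 0) [Infinite A] (Γ : Subgroup (symplecticGroup l A))
    [Γ.FiniteIndex] (hΓ : ∀ g ∈ Γ, g ≠ 1 → g ≠ neg1 l A) : UN.ICC Γ := by
  intro y hy hfin
  have hy1 : y.1 ≠ 1 := fun h => hy (Subtype.ext h)
  obtain ⟨q, hq⟩ : ∃ q : symplecticGroup l A →*
      symplecticGroup l A ⧸ Subgroup.center (symplecticGroup l A),
      q = QuotientGroup.mk' (Subgroup.center (symplecticGroup l A)) := ⟨_, rfl⟩
  have h1 : ((fun x : Γ => q x.1) '' {z : Γ | ∃ h, z = h * y * h⁻¹}).Finite := hfin.image _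
  have h3 : {z : symplecticGroup l A ⧸ Subgroup.center (symplecticGroup l A) | ∃ d ∈ Γ,
      z = QuotientGroup.mk' _ (d * y.1 * d⁻¹)}.Finite := by
    refine h1.subset ?_
    rintro _ ⟨d, hd, rfl⟩
    obtain ⟨D, hD⟩ : ∃ D : Γ, D.1 = d := ⟨⟨d, hd⟩, rfl⟩
    refine ⟨D * y * D⁻¹, ⟨D, rfl⟩, ?_⟩
    have e : (D * y * D⁻¹).1 = d * y.1 * d⁻¹ := by
      rw [Subgroup.coe_mul, Subgroup.coe_mul, Subgroup.coe_inv, hD]
    rw [← hq, ← e]
  rcases of_finite h2 Γ (fun v => infinite_tS Γ v) h3 with h | h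
  · exact hy1 h
  · exact hΓ _ y.2 hy1 h

end vec

end Vale.Agent.P092.H678.P
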