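import Vale.Agent.P092.H678.P.EuL
import Vale.Agent.P092.H678.P.EuC
import Vale.Agent.P092.H678.SLt
import Vale.Agent.P092.H259.Lat
import Vale.Agent.P092.UN.StC

/-!
P092 (helper678), block [P-LAT2].  Part 6: `PSp_{2n}(A)` is an ICC lattice of `PSp_{2n}(K)`; the pairs
`(F[x], F((1/x)))`, `(ℤ[i], ℂ)`, `(ℤ, ℝ)`.
-/

set_option linter.all false

open Matrix Set Topology

namespace Vale.Agent.P092.H678.P

open Vale.Agent.P092.H759 (om om_eq om_add_left om_add_right om_smul_left om_smul_right om_neg_left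
  om_neg_right om_sub_left om_sub_right om_swap om_self om_zero_left om_zero_right om_single_inr
  om_single_inl om_mulVec' tS tS_mulVec tS_conj tS_add tS_smul tS_trans mul_mulVec one_mulVec'
  inv_mulVec mulVec_inv sp_ext mp mp_mulVec neg1 neg1_mulVec neg1_inv)

section psp

variable {K : Type} [NontriviallyNormedField K] [ProperSpace K] {A : Type} [EuclideanDomain A]
  {φ : A →+* K} {R : ℝ} {l : Type} [Fintype l] [DecidableEq l]

theorem Coc.infinite (h : Coc φ R) : Infinite A := by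
  by_contra hcon
  rw [not_infinite_iff_finite] at hcon
  obtain ⟨B, hB⟩ : ∃ B : ℝ, ∀ a : A, ‖φ a‖ ≤ B := by
    obtain ⟨B, hB⟩ := (Set.finite_range fun a : A => ‖φ a‖).bddAbove
    exact ⟨B, fun a => hB ⟨a, rfl⟩⟩
  obtain ⟨x, hx⟩ := NormedField.exists_lt_norm K (B + R)
  obtain ⟨a, ha⟩ := h.coc x
  have h1 : ‖x‖ ≤ ‖x - φ a‖ + ‖φ a‖ := by
    calc ‖x‖ = ‖(x - φ a) + φ a‖ := by rw [sub_add_cancel]
      _ ≤ _ := norm_add_le _ _
  have := hB a
  linarith

theorem Coc.two (h : Coc φ R) (h2 : (2 : K) ≠ 0) : (2 : A) ≠ 0 := by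
  intro h0
  apply h2
  have := map_ofNat φ 2
  rw [← this, h0, map_zero]

theorem mp_neg1 : mp φ (neg1 l A) = neg1 l K := by
  apply Subtype.ext
  ext i j
  show φ ((-1 : Matrix (l ⊕ l) (l ⊕ l) A) i j) = (-1 : Matrix (l ⊕ l) (l ⊕ l) K) i j
  by_cases hij : i = j
  · subst hij; simp
  · simp [hij]

theorem mp_injective (h : Coc φ R) : Function.Injective (mp (l := l) φ) := by
  intro x y hxy
  apply Subtype.ext
  ext i j
  apply h.inj
  exact congrArg (fun B : symplecticGroup l K => B.1 i j) hxy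

theorem center_le (h : Coc φ R) (h2 : (2 : K) ≠ 0) : Subgroup.center (symplecticGroup l A) ≤
    (Subgroup.center (symplecticGroup l K)).comap (mp φ) := by
  intro x hx
  rw [Subgroup.mem_comap]
  apply mem_center_of
  rcases of_mem_center (h.two h2) hx with h1 | h1
  · left; rw [h1, map_one]
  · right; rw [h1, mp_neg1]

/-- `Sp_{2n}/{±1}` -/
abbrev PSp (l : Type) [Fintype l] [DecidableEq l] (R : Type) [CommRing R] : Type :=
  symplecticGroup l R ⧸ Subgroup.center (symplecticGroup l R)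

/-- `PSp_{2n}(A) → PSp_{2n}(K)` -/
noncomputable def psp (l : Type) [Fintype l] [DecidableEq l] (h : Coc φ R) (h2 : (2 : K) ≠ 0) :
    PSp l A →* PSp l K :=
  QuotientGroup.map _ _ (mp φ) (center_le h h2)

theorem psp_mk (h : Coc φ R) (h2 : (2 : K) ≠ 0) (x : symplecticGroup l A) :
    psp l h h2 (QuotientGroup.mk' _ x) = H259.pq _ (mp φ x) := rfl

theorem psp_injective (h : Coc φ R) (h2 : (2 : K) ≠ 0) : Function.Injective (psp l h h2) := by
  rw [injective_iff_map_eq_one]
  intro g hg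
  obtain ⟨x, rfl⟩ := QuotientGroup.mk'_surjective _ g
  rw [psp_mk] at hg
  have h1 : mp φ x ∈ Subgroup.center (symplecticGroup l K) :=
    (QuotientGroup.eq_one_iff _).1 hg
  refine (QuotientGroup.eq_one_iff _).2 (mem_center_of ?_)
  rcases of_mem_center h2 h1 with h3 | h3
  · left
    exact mp_injective h (h3.trans (map_one _).symm)
  · right
    exact mp_injective h (h3.trans mp_neg1.symm)

theorem finite_center (h2 : (2 : K) ≠ 0) : Finite (Subgroup.center (symplecticGroup l K)) := by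
  have h : ((Subgroup.center (symplecticGroup l K) : Subgroup (symplecticGroup l K)) :
      Set (symplecticGroup l K)) ⊆ {1, neg1 l K} := fun g hg => of_mem_center h2 hg
  exact ((Set.toFinite {1, neg1 l K}).subset h).to_subtype

theorem psp_lattice (h : Coc φ R) (h2 : (2 : K) ≠ 0) : H515.St.IsLattice (psp l h h2).range := by
  have h0 := isLattice_spA h l
  have h1 : H515.St.IsLattice (spA l φ) := ⟨h0.disc, h0.covol⟩
  have hf : Finite (Subgroup.center (symplecticGroup l K)) := finite_center h2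
  have h3 := H259.isLattice_map (H259.isProperMap_pq hf) H259.pq_surj h1
  have e : (psp l h h2).range = (spA l φ).map (H259.pq (symplecticGroup l K)) := by
    ext x
    constructor
    · rintro ⟨g, rfl⟩
      obtain ⟨y, rfl⟩ := QuotientGroup.mk'_surjective _ g
      exact ⟨_, ⟨y, rfl⟩, rfl⟩
    · rintro ⟨_, ⟨y, rfl⟩, rfl⟩
      exact ⟨QuotientGroup.mk' _ y, rfl⟩
  rw [e]
  exact h3

theorem quo_psp : UN.Quo (symplecticGroup l K) (PSp l K) :=
  ⟨H259.pq _, QuotientGroup.isQuotientMap_mk _, by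
    rw [QuotientGroup.ker_mk']⟩

/-- **`PSp_{2n}(A)` is an ICC lattice of `PSp_{2n}(K)`.** -/
theorem psp_A (l : Type) [Fintype l] [DecidableEq l] (h : Coc φ R) (h2 : (2 : K) ≠ 0) :
    UN.ICC (PSp l A) ∧ Function.Injective (psp l h h2) ∧ UN.IsLattice (psp l h h2).range := by
  haveI := h.infinite
  exact ⟨icc_psp (h.two h2), psp_injective h h2, (psp_lattice h h2).disc, (psp_lattice h h2).covol⟩

end psp

section inst

/-- `ℤ ⊂ ℝ` -/
theorem coc_int : Coc (Int.castRingHom ℝ) 1 where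
  pos := zero_le_one
  disc a ha := by
    have : (1 : ℤ) ≤ |a| := Int.one_le_abs ha
    show 1 ≤ ‖((a : ℤ) : ℝ)‖
    rw [Real.norm_eq_abs]
    exact_mod_cast this
  coc x := by
    refine ⟨⌊x⌋, ?_⟩
    show ‖x - ((⌊x⌋ : ℤ) : ℝ)‖ ≤ 1
    rw [Int.self_sub_floor, Real.norm_eq_abs, abs_of_nonneg (Int.fract_nonneg _)]
    exact (Int.fract_lt_one _).le

/-- `ℤ[i] ⊂ ℂ` -/
theorem coc_gauss : Coc (A := GaussianInt) (K := ℂ) GaussianInt.toComplex 2 where
  pos := zero_le_two
  disc a ha := by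
    have h1 : (1 : ℤ) ≤ a.norm := GaussianInt.norm_pos.2 ha
    have h2 : (1 : ℝ) ≤ Complex.normSq (GaussianInt.toComplex a) := by
      rw [← GaussianInt.intCast_real_norm]
      exact_mod_cast h1
    rw [Complex.normSq_eq_norm_sq] at h2
    nlinarith [norm_nonneg (GaussianInt.toComplex a)]
  coc x := by
    refine ⟨⟨⌊x.re⌋, ⌊x.im⌋⟩, ?_⟩
    have h1 := Int.fract_nonneg x.re
    have h2 := (Int.fract_lt_one x.re).le
    have h3 := Int.fract_nonneg x.im
    have h4 := (Int.fract_lt_one x.im).le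
    refine (Complex.norm_le_abs_re_add_abs_im _).trans ?_
    rw [Complex.sub_re, Complex.sub_im, GaussianInt.re_toComplex, GaussianInt.im_toComplex,
      Int.self_sub_floor, Int.self_sub_floor, abs_of_nonneg h1, abs_of_nonneg h3]
    linarith

variable {F : Type} [Field F]

theorem cf_psi (f : Polynomial F) (i : ℤ) :
    cf (H678.psi f) i = (Polynomial.toLaurent f).coeff (-i) := by
  show cf (φ₂ (Polynomial.toLaurent f)) i = _
  rw [cf_φ₂]

theorem cf_psi_nat (f : Polynomial F) (d : ℕ) : cf (H678.psi f) (-(d : ℤ)) = f.coeff d := by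
  rw [cf_psi, neg_neg, coeff_toLaurent_nat]

/-- `F[x] ⊂ F((1/x))` -/
theorem coc_poly (F : Type) [Field F] : Coc (H678.psi : Polynomial F →+* LS F) 1 where
  pos := zero_le_one
  disc a ha := by
    by_contra hcon
    push Not at hcon
    have hne : H678.psi a ≠ 0 := fun h => ha (H678.psi_inj (h.trans (map_zero _).symm))
    have h1 : 0 < ord (H678.psi a) := by
      rw [norm_eq hne] at hcon
      by_contra h
      have h2 : (0 : ℤ) ≤ -ord (H678.psi a) := by omega
      have h3 : (1 : ℝ) ≤ (2 : ℝ) ^ (-ord (H678.psi a)) := one_le_zpow₀ (by norm_num) h2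
      linarith
    apply ha
    ext d
    rw [Polynomial.coeff_zero, ← cf_psi_nat]
    exact cf_of_lt (by omega)
  coc x := by
    classical
    obtain ⟨n, hn⟩ : ∃ n : ℕ, ∀ i : ℤ, i < -(n : ℤ) → cf x i = 0 := by
      refine ⟨(-ord x).toNat, fun i hi => cf_of_lt ?_⟩
      omega
    obtain ⟨a, ha⟩ : ∃ a : Polynomial F, a = ∑ d ∈ Finset.range (n + 1),
        Polynomial.C (cf x (-(d : ℤ))) * Polynomial.X ^ d := ⟨_, rfl⟩
    have hc : ∀ d : ℕ, a.coeff d = cf x (-(d : ℤ)) := by
      intro d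
      rw [ha, Polynomial.finset_sum_coeff]
      simp only [Polynomial.coeff_C_mul_X_pow]
      rw [Finset.sum_ite_eq]
      split_ifs with h
      · rfl
      · rw [Finset.mem_range] at h
        rw [hn]
        omega
    refine ⟨a, ?_⟩
    rw [norm_le_one_iff]
    intro i hi
    obtain ⟨d, rfl⟩ : ∃ d : ℕ, i = -(d : ℤ) := ⟨(-i).toNat, by omega⟩
    rw [cf_sub, cf_psi_nat, hc, sub_self]

theorem two_LS {F : Type} [Field F] (h2 : (2 : F) ≠ 0) : (2 : LS F) ≠ 0 := by
  intro h
  apply h2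
  have h1 : (cst : F →+* LS F) 2 = 0 := by rw [map_ofNat, h]
  exact (injective_iff_map_eq_zero (cst : F →+* LS F)).1 (RingHom.injective _) _ h1

/-- **`PSp_4(F_q[x])`, `q` odd, is an ICC lattice of `PSp_4(F_q((1/x)))`.** -/
theorem latticeC_poly (F : Type) [Field F] [Finite F] (h2 : (2 : F) ≠ 0) :
    UN.LatticeC (symplecticGroup (Fin 2) (Polynomial F) ⧸
      Subgroup.center (symplecticGroup (Fin 2) (Polynomial F))) := by
  obtain ⟨h3, h4, h5⟩ := psp_A (Fin 2) (coc_poly F) (two_LS h2)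
  exact ⟨h3, PSp (Fin 2) (LS F), inferInstance, inferInstance, psp (Fin 2) (coc_poly F) (two_LS h2),
    Or.inr ⟨LS F, inferInstance, inferInstance, inferInstance, two_LS h2, quo_psp⟩, h4, h5⟩

end inst

end Vale.Agent.P092.H678.P
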