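import Vale.Agent.P092.H678.P.EuV
import Vale.Agent.P092.UN.StW

/-!
P092 (helper678): `PSp_{2n}(F_q[x])`, `PSp_4(ℤ)`, `PSp_4(ℤ[i])` are of the class `LatticeW`.
-/

set_option linter.all false

open Matrix Set Topology

namespace Vale.Agent.P092.H678.P

theorem isPol_psp (K : Type) [NontriviallyNormedField K] (h2 : (2 : K) ≠ 0) (q : ℕ) :
    UN.IsPol K (PSp (Fin q) K) q :=
  ⟨RingHom.id K, -1, Empty, inferInstance, inferInstance, 0, SE K q, continuous_id,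
    fun _ => rfl, isAn_empty K _ _, mem_SE,
    Or.inl ⟨Or.inr ⟨fun _ => rfl, rfl, inferInstance, Or.inl h2⟩, quoS_psp K q⟩⟩

/-- **`PSp_{2n}(F_q[x])`, `n ≥ 2`, `q` odd, is an ICC lattice of `PSp_{2n}(F_q((1/x)))`.** -/
theorem latticeW_poly (F : Type) [Field F] [Finite F] (h2 : (2 : F) ≠ 0) (n : ℕ) (hn : 2 ≤ n) :
    UN.LatticeW (symplecticGroup (Fin n) (Polynomial F) ⧸
      Subgroup.center (symplecticGroup (Fin n) (Polynomial F))) := by
  obtain ⟨h3, h4, h5⟩ := psp_A (Fin n) (coc_poly F) (two_LS h2)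
  exact ⟨h3, PSp (Fin n) (LS F), inferInstance, inferInstance, psp (Fin n) (coc_poly F) (two_LS h2),
    Or.inl ⟨LS F, inferInstance, n, inferInstance, inferInstance, hn,
      isPol_psp (LS F) (two_LS h2) n⟩, h4, h5⟩

/-- **`PSp_4(ℤ)` is an ICC lattice of `PSp_4(ℝ)`.** -/
theorem latticeW_int : UN.LatticeW (symplecticGroup (Fin 2) ℤ ⧸
    Subgroup.center (symplecticGroup (Fin 2) ℤ)) := by
  obtain ⟨h3, h4, h5⟩ := psp_A (Fin 2) coc_int two_ne_zero
  exact ⟨h3, PSp (Fin 2) ℝ, inferInstance, inferInstance, psp (Fin 2) coc_int two_ne_zero,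
    Or.inr (Or.inl (isPol_psp ℝ two_ne_zero 2)), h4, h5⟩

/-- **`PSp_4(ℤ[i])` is an ICC lattice of `PSp_4(ℂ)`.** -/
theorem latticeW_gauss : UN.LatticeW (symplecticGroup (Fin 2) GaussianInt ⧸
    Subgroup.center (symplecticGroup (Fin 2) GaussianInt)) := by
  obtain ⟨h3, h4, h5⟩ := psp_A (Fin 2) coc_gauss two_ne_zero
  exact ⟨h3, PSp (Fin 2) ℂ, inferInstance, inferInstance, psp (Fin 2) coc_gauss two_ne_zero,
    Or.inr (Or.inr (isPol_psp ℂ two_ne_zero 2)), h4, h5⟩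

end Vale.Agent.P092.H678.P
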