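import Vale.Agent.P092.H759.SpS

/-!
P092 (helper678), block [P-LAT2].  Part 1: the symplectic group over a Euclidean domain is transitive
on primitive vectors; over an infinite field it has no nontrivial homomorphism to a commutative group
without elements of order two.
-/

set_option linter.all false

open Matrix

namespace Vale.Agent.P092.H678.P

open Vale.Agent.P092.H759 (om om_eq om_add_left om_add_right om_smul_left om_smul_right om_neg_left
  om_neg_right om_sub_left om_sub_right om_swap om_self om_zero_left om_zero_right om_single_inr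
  om_single_inl om_mulVec' tS tS_mulVec tS_conj tS_add tS_smul tS_trans mul_mulVec one_mulVec'
  inv_mulVec mulVec_inv sp_ext mp mp_mulVec e0 f0 emb prj emb_zero ioS heS ioS_mulVec
  heS_mulVec heS_mul heS_ioS ioS_mul ioS_one exists_coord sec sec_e0 exists_coord' exists_move
  mulVec_ne_zero e0_ne_zero neg1 neg1_mulVec neg1_inv om_e0 om_f0 e0_inl e0_inr
  f0_inl f0_inr)

section orb

variable {l : Type} [Fintype l] [DecidableEq l] {A : Type} [EuclideanDomain A]

/-- the orbit of the first basis vector under the integral symplectic group -/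
def Orb (u : Option l ⊕ Option l → A) : Prop :=
  ∃ γ : symplecticGroup (Option l) A, γ.1 *ᵥ e0 = u

theorem Orb.mul {u : Option l ⊕ Option l → A} (h : Orb u) (g : symplecticGroup (Option l) A) :
    Orb (g.1 *ᵥ u) := by
  obtain ⟨γ, rfl⟩ := h
  exact ⟨g * γ, mul_mulVec _ _ _⟩

theorem Orb.edge {y z : Option l ⊕ Option l → A} (hz : Orb z) (h : om y z = 1 ∨ om y z = -1) :
    Orb y := by
  have h1 : (om y z) * om y z = 1 := by rcases h with h | h <;> rw [h] <;> ring
  rw [← tS_trans h1]
  exact hz.mul _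

theorem orb_e0 : Orb (e0 : Option l ⊕ Option l → A) := ⟨1, one_mulVec' _⟩

theorem orb_f0 : Orb (f0 : Option l ⊕ Option l → A) := by
  refine orb_e0.edge (Or.inl ?_)
  simp

theorem orb_inl (i : l) : Orb (Pi.single (Sum.inl (some i)) 1 : Option l ⊕ Option l → A) := by
  have h1 : Orb (f0 + Pi.single (Sum.inr (some i)) 1 : Option l ⊕ Option l → A) := by
    refine orb_e0.edge (Or.inl ?_)
    rw [om_add_left, om_f0, om_single_inr]
    simp [e0]
  refine h1.edge (Or.inr ?_)
  rw [om_add_right, om_single_inl, om_single_inl]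
  simp [f0]

theorem orb_inr (i : l) : Orb (Pi.single (Sum.inr (some i)) 1 : Option l ⊕ Option l → A) := by
  have h1 : Orb (f0 + Pi.single (Sum.inl (some i)) 1 : Option l ⊕ Option l → A) := by
    refine orb_e0.edge (Or.inl ?_)
    rw [om_add_left, om_f0, om_single_inl]
    simp [e0]
  refine h1.edge (Or.inl ?_)
  rw [om_add_right, om_single_inr, om_single_inr]
  simp [f0]

theorem orb_red (k : Option l ⊕ Option l) (hk : k ≠ Sum.inr none) (q : A) :
    Orb (Pi.single k 1 - q • f0 : Option l ⊕ Option l → A) := by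
  rcases k with (_ | i) | (_ | i)
  · refine orb_f0.edge (Or.inr ?_)
    rw [om_sub_left, om_smul_left, om_self, om_single_inl]
    simp
  · refine (orb_inr i).edge (Or.inr ?_)
    rw [om_sub_left, om_smul_left, om_f0, om_single_inl]
    simp
  · exact absurd rfl hk
  · refine (orb_inl i).edge (Or.inl ?_)
    rw [om_sub_left, om_smul_left, om_f0, om_single_inr]
    simp

/-- every nonzero integral vector is a multiple of a vector of the orbit -/
theorem exists_orb {v : Option l ⊕ Option l → A} (hv : v ≠ 0) :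
    ∃ (a : A) (u : Option l ⊕ Option l → A), a ≠ 0 ∧ Orb u ∧ v = a • u := by
  classical
  obtain ⟨T, hT⟩ : ∃ T : Set A, T = {s | s ≠ 0 ∧ ∃ u, Orb u ∧ om u v = s} := ⟨_, rfl⟩
  have hex : T.Nonempty := by
    rw [hT]
    obtain ⟨k, hk⟩ := Function.ne_iff.1 hv
    rw [Pi.zero_apply] at hk
    rcases k with (_ | i) | (_ | i)
    · exact ⟨_, hk, f0, orb_f0, by rw [om_f0]⟩
    · exact ⟨_, hk, _, orb_inr i, by rw [om_single_inr]⟩
    · exact ⟨_, neg_ne_zero.2 hk, e0, orb_e0, by rw [om_e0]⟩
    · exact ⟨_, neg_ne_zero.2 hk, _, orb_inl i, by rw [om_single_inl]⟩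
  obtain ⟨s, hs1, hmin⟩ := (EuclideanDomain.r_wellFounded (R := A)).has_min T hex
  rw [hT] at hs1
  obtain ⟨hs0, u₀, hu₀, hs⟩ := hs1
  obtain ⟨γ, hγ⟩ : ∃ γ : symplecticGroup (Option l) A, γ.1 *ᵥ f0 = u₀ := by
    obtain ⟨γ, rfl⟩ := hu₀
    obtain ⟨δ, hδ⟩ := orb_f0 (l := l) (A := A)
    refine ⟨γ * δ⁻¹, ?_⟩
    rw [mul_mulVec, ← hδ, inv_mulVec]
  obtain ⟨w, hw⟩ : ∃ w, w = (γ⁻¹).1 *ᵥ v := ⟨_, rfl⟩
  have hvw : v = γ.1 *ᵥ w := by rw [hw, mulVec_inv]
  have hsw : s = om f0 w := by
    rw [← hs, hvw, ← hγ, om_mulVec']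
  have hdiv : ∀ k, k ≠ Sum.inr none → s ∣ om (Pi.single k 1) w := by
    intro k hk
    by_contra hnd
    have h1 : om (Pi.single k 1 - (om (Pi.single k 1) w / s) • f0) w =
        om (Pi.single k 1) w % s := by
      rw [om_sub_left, om_smul_left, ← hsw, EuclideanDomain.mod_eq_sub_mul_div]
      ring
    have h2 : om (Pi.single k 1) w % s ≠ 0 := fun h => hnd (EuclideanDomain.mod_eq_zero.1 h)
    refine hmin _ ?_ (EuclideanDomain.mod_lt (om (Pi.single k 1) w) hs0)
    rw [hT]
    refine ⟨h2, _, (orb_red k hk (om (Pi.single k 1) w / s)).mul γ, ?_⟩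
    rw [hvw, om_mulVec', h1]
  have hall : ∀ j, s ∣ w j := by
    intro j
    rcases j with (_ | i) | (_ | i)
    · rw [hsw, om_f0]
    · have := hdiv (Sum.inr (some i)) (by simp)
      rwa [om_single_inr] at this
    · have := hdiv (Sum.inl none) (by simp)
      rwa [om_single_inl, dvd_neg] at this
    · have := hdiv (Sum.inl (some i)) (by simp)
      rwa [om_single_inl, dvd_neg] at this
  choose w' hw' using hall
  have hww : w = s • w' := by
    funext j; rw [hw' j]; rfl
  have h6 : om f0 w' = 1 := by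
    have h7 : s * om f0 w' = s * 1 := by rw [← om_smul_right, ← hww, mul_one, ← hsw]
    exact mul_left_cancel₀ hs0 h7
  have h8 : Orb w' := orb_f0.edge (Or.inr (by rw [om_swap, h6]))
  refine ⟨s, γ.1 *ᵥ w', hs0, h8.mul γ, ?_⟩
  rw [hvw, hww, Matrix.mulVec_smul]

end orb

section hom

variable {l : Type} [Fintype l] [DecidableEq l] {K : Type} [Field K] {C : Type}
  [CommGroup C] (f : symplecticGroup (Option l) K →* C)

theorem f_conj (a b : symplecticGroup (Option l) K) : f (a * b * a⁻¹) = f b := by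
  rw [map_mul, map_mul, map_inv, mul_comm (f a), mul_assoc, mul_inv_cancel, mul_one]

/-- an infinite field contains an element different from `0`, `1`, `-1` -/
theorem exists_sq (K : Type) [Field K] [Infinite K] : ∃ a : K, a ≠ 0 ∧ a * a - 1 ≠ 0 := by
  classical
  obtain ⟨a, ha⟩ := Infinite.exists_notMem_finset ({0, 1, -1} : Finset K)
  simp only [Finset.mem_insert, Finset.mem_singleton, not_or] at ha
  refine ⟨a, ha.1, fun h => ?_⟩
  have h1 : (a - 1) * (a + 1) = 0 := by linear_combination h
  rcases mul_eq_zero.1 h1 with h2 | h2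
  · exact ha.2.1 (sub_eq_zero.1 h2)
  · exact ha.2.2 (eq_neg_of_add_eq_zero_left h2)

theorem f_e0 [Infinite K] (c : K) : f (tS e0 c) = 1 := by
  obtain ⟨a, ha0, ha⟩ := exists_sq K
  have h1 : ∀ c : K, f (tS e0 ((a * a - 1) * c)) = 1 := by
    intro c
    have h2 := tS_conj (sec (a • (e0 : Option l ⊕ Option l → K))) e0 c
    rw [sec_e0 (by simpa using ha0), tS_smul] at h2
    have h3 := f_conj f (sec (a • (e0 : Option l ⊕ Option l → K))) (tS e0 c)
    rw [h2] at h3
    have h4 : a * a * c = c + (a * a - 1) * c := by ring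
    rw [h4, ← tS_add, map_mul] at h3
    exact mul_eq_left.1 h3
  have h5 : c = (a * a - 1) * (c / (a * a - 1)) := by
    rw [← mul_div_assoc, mul_div_cancel_left₀ _ ha]
  rw [h5]
  exact h1 _

theorem f_D [Infinite K] {v : Option l ⊕ Option l → K} (hv : v (Sum.inl none) ≠ 0) (c : K) :
    f (tS v c) = 1 := by
  nth_rw 1 [← sec_e0 hv]
  rw [← tS_conj, f_conj, f_e0]

theorem f_sec [Infinite K] {x : Option l ⊕ Option l → K} (hx : x (Sum.inl none) ≠ 0) :
    f (sec x) = 1 := by
  rw [sec, map_mul, f_D f, f_D f, one_mul]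
  · simp
  · simpa using hx

theorem heS_zl {R : Type} [CommRing R] (c : R) : heS (0 : l ⊕ l → R) c = tS e0 (-c) := by
  refine sp_ext fun y => ?_
  rw [heS_mulVec, tS_mulVec, om_zero_right, om_e0, emb_zero, add_zero, zero_smul, add_zero,
    smul_smul]
  congr 2
  ring

theorem f_heS [Infinite K] (hC : ∀ c : C, c * c = 1 → c = 1) (b : l ⊕ l → K) (c : K) :
    f (heS b c) = 1 := by
  refine hC _ ?_
  have h2 : f (heS (-b) c) = f (heS b c) := by
    have h3 := congrArg f (heS_ioS b c (neg1 l K))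
    rw [neg1_inv, neg1_mulVec, map_mul, map_mul, mul_comm] at h3
    exact (mul_left_cancel h3).symm
  have h4 : heS b c * heS (-b) c = heS 0 (c + c) := by
    rw [heS_mul, add_neg_cancel, om_neg_left, om_self, neg_zero, add_zero]
  nth_rw 2 [← h2]
  rw [← map_mul, h4, heS_zl, f_e0]

/-- the inclusion of the old group as a homomorphism -/
def ioH (l : Type) [Fintype l] [DecidableEq l] (R : Type) [CommRing R] :
    symplecticGroup l R →* symplecticGroup (Option l) R where
  toFun := ioS
  map_one' := ioS_one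
  map_mul' := ioS_mul

theorem hom_triv_step [Infinite K] (hC : ∀ c : C, c * c = 1 → c = 1)
    (hl : ∀ f : symplecticGroup l K →* C, f = 1) : f = 1 := by
  have h1 : ∀ S : symplecticGroup l K, f (ioS S) = 1 := fun S => by
    have := hl (f.comp (ioH l K))
    exact DFunLike.congr_fun this S
  have h2 : ∀ g : symplecticGroup (Option l) K, (g.1 *ᵥ e0) (Sum.inl none) ≠ 0 → f g = 1 := by
    intro g hg
    obtain ⟨S, b, c, h⟩ := exists_coord' g hg
    rw [h, map_mul, map_mul, f_sec f hg, h1, f_heS f hC, one_mul, one_mul]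
  ext g
  rw [MonoidHom.one_apply]
  by_cases hg : (g.1 *ᵥ e0) (Sum.inl none) = 0
  · obtain ⟨w, hw, how⟩ := exists_move (mulVec_ne_zero g e0_ne_zero)
    have h3 := h2 (tS w 1 * g) (by
      rw [mul_mulVec, tS_mulVec, Pi.add_apply, hg, zero_add, Pi.smul_apply, one_mul, smul_eq_mul]
      exact mul_ne_zero how hw)
    rw [map_mul, f_D f hw, one_mul] at h3
    exact h3
  · exact h2 g hg

theorem hom_triv_empty {m : Type} [Fintype m] [DecidableEq m] [IsEmpty m]
    (f : symplecticGroup m K →* C) : f = 1 := by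
  ext g
  have : g = 1 := Subtype.ext (Subsingleton.elim _ _)
  rw [this, map_one, map_one]

end hom

end Vale.Agent.P092.H678.P
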