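import Vale.Agent.P092.H678.P.EuH
import Vale.Agent.P092.H759.SpG

/-!
P092 (helper678), block [P-LAT2].  Part 4: the covering (Blichfeldt); `Sp_{2n}(A)` is a lattice of
`Sp_{2n}(K)` for every Euclidean ring `A` which is discrete and cocompact in the local field `K`.
-/

set_option linter.all false

open Matrix MeasureTheory MeasureTheory.Measure Set Filter Topology
open scoped ENNReal NNReal Pointwise

namespace Vale.Agent.P092.H678.P

open Vale.Agent.P092.H759 (om om_eq om_add_left om_add_right om_smul_left om_smul_right om_neg_left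
  om_neg_right om_sub_left om_sub_right om_swap om_self om_zero_left om_zero_right om_single_inr
  om_single_inl om_mulVec' tS tS_mulVec tS_conj tS_add tS_smul tS_trans mul_mulVec one_mulVec'
  inv_mulVec mulVec_inv sp_ext mp mp_mulVec e0 f0 emb prj emb_zero ioS heS ioS_mulVec
  heS_mulVec heS_mul heS_ioS ioS_mul ioS_one exists_coord sec sec_e0 exists_coord' exists_move
  mulVec_ne_zero e0_ne_zero neg1 neg1_mulVec neg1_inv om_e0 om_f0 e0_inl e0_inr
  f0_inl f0_inr heS_e0 ioS_e0 coord_inj coord_mul map_e0 mp_ioS mp_heS rx rxE rx_rx)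

/-- a discrete and cocompact subring of a normed field -/
structure Coc {A K : Type} [CommRing A] [NontriviallyNormedField K] (φ : A →+* K) (R : ℝ) :
    Prop where
  pos : 0 ≤ R
  disc : ∀ a, a ≠ 0 → 1 ≤ ‖φ a‖
  coc : ∀ x, ∃ a, ‖x - φ a‖ ≤ R

section coc

variable {K : Type} [NontriviallyNormedField K] {A : Type} [CommRing A] {φ : A →+* K} {R : ℝ}

theorem Coc.inj (h : Coc φ R) : Function.Injective φ := by
  rw [injective_iff_map_eq_zero]
  intro a ha
  by_contra hne
  have := h.disc a hne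
  rw [ha, norm_zero] at this
  linarith

/-- the ring is countable -/
theorem Coc.countable [ProperSpace K] (h : Coc φ R) : Countable A := by
  have h1 : DiscreteTopology (range φ) := by
    refine DiscreteTopology.of_forall_le_dist (r := 1) one_pos ?_
    rintro ⟨_, a, rfl⟩ ⟨_, b, rfl⟩ hab
    have h2 : a - b ≠ 0 := by
      intro h3
      exact hab (by rw [sub_eq_zero.1 h3])
    rw [Subtype.dist_eq, dist_eq_norm, ← map_sub]
    exact h.disc _ h2
  have h2 : Countable (range φ) := TopologicalSpace.separableSpace_iff_countable.1 inferInstance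
  have h3 : Function.Injective fun a => (⟨φ a, a, rfl⟩ : range φ) := fun a b hab =>
    h.inj (congrArg Subtype.val hab)
  exact h3.countable

end coc

section blich

variable {K : Type} [NontriviallyNormedField K] [ProperSpace K] [MeasurableSpace K] [BorelSpace K]
  (κ : Measure K) [IsAddHaarMeasure κ] {A : Type} [CommRing A] {φ : A →+* K} {R : ℝ}
  {ι : Type} [Fintype ι]

/-- the lattice of the vector space -/
def vl (φ : A →+* K) (a : ι → A) : ι → K := fun i => φ (a i)

theorem vl_sub (a b : ι → A) : vl φ (a - b) = vl φ a - vl φ b := by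
  funext i
  exact map_sub φ _ _

/-- **Blichfeldt.** -/
theorem blichfeldt (h : Coc φ R) [Countable A] {s : Set (ι → K)} (hs : MeasurableSet s)
    (hlt : vo ι κ (Metric.closedBall 0 R) < vo ι κ s) :
    ∃ x ∈ s, ∃ y ∈ s, ∃ a : ι → A, a ≠ 0 ∧ x - y = vl φ a := by
  by_contra hcon
  push Not at hcon
  refine absurd hlt (not_lt.2 ?_)
  obtain ⟨D, hD⟩ : ∃ D : Set (ι → K), D = Metric.closedBall 0 R := ⟨_, rfl⟩
  have hDm : MeasurableSet D := by rw [hD]; exact Metric.isClosed_closedBall.measurableSet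
  rw [← hD]
  have hcov : s ⊆ ⋃ a : ι → A, s ∩ (fun x => -vl φ a + x) ⁻¹' D := by
    intro x hx
    choose a ha using fun i => h.coc (x i)
    refine mem_iUnion.2 ⟨a, hx, ?_⟩
    show -vl φ a + x ∈ D
    rw [hD, mem_closedBall_zero_iff, pi_norm_le_iff_of_nonneg h.pos]
    intro i
    rw [neg_add_eq_sub]
    exact ha i
  have hpre : ∀ a : ι → A, vo ι κ (s ∩ (fun x => -vl φ a + x) ⁻¹' D) =
      vo ι κ ((fun x => vl φ a + x) ⁻¹' s ∩ D) := by
    intro a
    have h1 : (fun x => vl φ a + x) ⁻¹' s ∩ D =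
        (fun x => vl φ a + x) ⁻¹' (s ∩ (fun x => -vl φ a + x) ⁻¹' D) := by
      ext x
      simp only [mem_inter_iff, mem_preimage, neg_add_cancel_left]
    rw [h1, measure_preimage_add]
  have hdis : Pairwise (Function.onFun Disjoint fun a : ι → A =>
      (fun x => vl φ a + x) ⁻¹' s ∩ D) := by
    intro a b hab
    refine disjoint_left.2 fun x hxa hxb => ?_
    refine hcon _ hxa.1 _ hxb.1 (a - b) (sub_ne_zero.2 hab) ?_
    rw [vl_sub]
    show (vl φ a + x) - (vl φ b + x) = _
    abel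
  have hms : ∀ a : ι → A, MeasurableSet ((fun x => vl φ a + x) ⁻¹' s ∩ D) := fun a =>
    ((measurable_const_add _) hs).inter hDm
  calc vo ι κ s ≤ vo ι κ (⋃ a : ι → A, s ∩ (fun x => -vl φ a + x) ⁻¹' D) := measure_mono hcov
    _ ≤ ∑' a : ι → A, vo ι κ (s ∩ (fun x => -vl φ a + x) ⁻¹' D) := measure_iUnion_le _
    _ = ∑' a : ι → A, vo ι κ ((fun x => vl φ a + x) ⁻¹' s ∩ D) := by
        exact tsum_congr hpre
    _ = vo ι κ (⋃ a : ι → A, (fun x => vl φ a + x) ⁻¹' s ∩ D) :=
        (measure_iUnion hdis hms).symm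
    _ ≤ vo ι κ D := measure_mono (iUnion_subset fun a => inter_subset_right)

end blich

section short

variable {K : Type} [NontriviallyNormedField K] [ProperSpace K] [MeasurableSpace K] [BorelSpace K]
  (κ : Measure K) [IsAddHaarMeasure κ] {A : Type} [CommRing A] {φ : A →+* K} {R : ℝ}
  {m : Type} [Fintype m] [DecidableEq m] [Nonempty m]

/-- large balls have large volume -/
theorem exists_ball (ι : Type) [Fintype ι] [Nonempty ι] (R : ℝ) :
    ∃ n : ℕ, vo ι κ (Metric.closedBall 0 R) < vo ι κ (Metric.closedBall 0 n) := by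
  have h1 : vo ι κ (Metric.closedBall 0 R) < ∞ := (isCompact_closedBall _ _).measure_lt_top
  haveI : NoncompactSpace (ι → K) := NormedSpace.noncompactSpace K (ι → K)
  have h2 : vo ι κ univ = ∞ := measure_univ_of_isAddLeftInvariant _
  by_contra hcon
  push Not at hcon
  have h3 : (univ : Set (ι → K)) = ⋃ n : ℕ, Metric.closedBall 0 n :=
    (Metric.iUnion_closedBall_nat 0).symm
  have h4 : vo ι κ univ ≤ vo ι κ (Metric.closedBall 0 R) := by
    rw [h3, Directed.measure_iUnion]
    · exact iSup_le hcon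
    · refine Monotone.directed_le fun a b hab => Metric.closedBall_subset_closedBall ?_
      exact_mod_cast hab
  rw [h2] at h4
  exact absurd h1 (not_lt.2 h4)

include κ in
/-- **Minkowski.** -/
theorem exists_short (h : Coc φ R) (ht : ∀ f : symplecticGroup m K →* (NNReal)ˣ, f = 1) :
    ∃ C : ℝ, 0 ≤ C ∧ ∀ g : symplecticGroup m K, ∃ v : m ⊕ m → A, v ≠ 0 ∧
      ‖g.1 *ᵥ vl φ v‖ ≤ C := by
  haveI := h.countable
  obtain ⟨n, hn⟩ := exists_ball κ (m ⊕ m) R
  refine ⟨n + n, by positivity, fun g => ?_⟩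
  have hg := mp_vol κ ht g
  have hm : MeasurableSet (Metric.closedBall (0 : m ⊕ m → K) n) :=
    Metric.isClosed_closedBall.measurableSet
  obtain ⟨x, hx, y, hy, a, ha, hxy⟩ := blichfeldt κ h (hg.measurable hm) (by
    rw [hg.measure_preimage hm.nullMeasurableSet]
    exact hn)
  refine ⟨a, ha, ?_⟩
  rw [← hxy, Matrix.mulVec_sub]
  refine (norm_sub_le _ _).trans (add_le_add ?_ ?_)
  · have := mem_closedBall_zero_iff.1 (mem_preimage.1 hx)
    exact this
  · have := mem_closedBall_zero_iff.1 (mem_preimage.1 hy)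
    exact this

end short

section disc

variable {K : Type} [NontriviallyNormedField K] [ProperSpace K] {A : Type} [CommRing A]
  {φ : A →+* K} {R : ℝ} {l : Type} [Fintype l] [DecidableEq l]

/-- `Sp_{2n}(A)` in `Sp_{2n}(K)` -/
def spA (l : Type) [Fintype l] [DecidableEq l] (φ : A →+* K) : Subgroup (symplecticGroup l K) :=
  (mp (l := l) φ).range

theorem disc_spA (h : Coc φ R) : DiscreteTopology (spA l φ) := by
  have h2 : ∀ B : spA l φ, ∃ C : symplecticGroup l A, mp φ C = B.1 := fun B => B.2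
  choose ψ hψ using h2
  have hent : ∀ (B : spA l φ) i j, B.1.1 i j = φ ((ψ B).1 i j) := by
    intro B i j
    have := congrArg (fun C : symplecticGroup l K => C.1 i j) (hψ B)
    exact this.symm
  refine discreteTopology_of_isOpen_singleton_one ?_
  have h3 : ({1} : Set (spA l φ)) =
      ⋂ i, ⋂ j, {B | ‖B.1.1 i j - (1 : Matrix (l ⊕ l) (l ⊕ l) K) i j‖ < 1} := by
    ext B
    simp only [mem_singleton_iff, mem_iInter, mem_setOf_eq]
    constructor
    · rintro rfl i j
      simp
    · intro h'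
      refine Subtype.ext (Subtype.ext ?_)
      ext i j
      have h4 := h' i j
      show B.1.1 i j = (1 : Matrix (l ⊕ l) (l ⊕ l) K) i j
      have h5 : (1 : Matrix (l ⊕ l) (l ⊕ l) K) i j = φ ((1 : Matrix (l ⊕ l) (l ⊕ l) A) i j) := by
        by_cases hij : i = j
        · subst hij; simp
        · simp [hij]
      rw [h5, hent] at h4 ⊢
      rw [← map_sub] at h4
      by_contra hne
      have h6 : (ψ B).1 i j - (1 : Matrix (l ⊕ l) (l ⊕ l) A) i j ≠ 0 := fun h7 =>
        hne (by rw [sub_eq_zero.1 h7])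
      exact absurd (h.disc _ h6) (not_le.2 h4)
  rw [h3]
  refine isOpen_iInter_of_finite fun i => isOpen_iInter_of_finite fun j => ?_
  refine isOpen_lt ?_ continuous_const
  refine continuous_norm.comp (Continuous.sub ?_ continuous_const)
  have h4 : Continuous fun B : spA l φ => B.1.1 :=
    continuous_subtype_val.comp continuous_subtype_val
  exact (continuous_apply j).comp ((continuous_apply i).comp h4)

end disc

section cover

variable {K : Type} [NontriviallyNormedField K] [ProperSpace K] {A : Type} [EuclideanDomain A]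
  {φ : A →+* K} {R : ℝ} {l : Type} [Fintype l] [DecidableEq l]

/-- the box of the coordinates -/
def box (C R : ℝ) (F : Set (symplecticGroup l K)) : Set ((Option l ⊕ Option l → K) × HH l K) :=
  Metric.closedBall 0 C ×ˢ (F ×ˢ (Metric.closedBall 0 R ×ˢ Metric.closedBall 0 R))

theorem meas_box [MeasurableSpace K] [BorelSpace K] [MeasurableSpace (symplecticGroup l K)]
    [BorelSpace (symplecticGroup l K)] {C R : ℝ}
    {F : Set (symplecticGroup l K)} (hF : MeasurableSet F) : MeasurableSet (box C R F) :=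
  Metric.isClosed_closedBall.measurableSet.prod (hF.prod
    (Metric.isClosed_closedBall.measurableSet.prod Metric.isClosed_closedBall.measurableSet))

theorem box_lt [MeasurableSpace K] [BorelSpace K] (κ : Measure K) [IsAddHaarMeasure κ]
    [MeasurableSpace (symplecticGroup l K)] [BorelSpace (symplecticGroup l K)] {C R : ℝ}
    (μ : Measure (symplecticGroup l K)) [IsHaarMeasure μ] {F : Set (symplecticGroup l K)}
    (hF : μ F < ∞) : MM κ μ (box C R F) < ∞ := by
  rw [box, MM, mH, Measure.prod_prod, Measure.prod_prod, Measure.prod_prod]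
  exact ENNReal.mul_lt_top (isCompact_closedBall _ _).measure_lt_top (ENNReal.mul_lt_top hF
    (ENNReal.mul_lt_top (isCompact_closedBall _ _).measure_lt_top
      (isCompact_closedBall _ _).measure_lt_top))

theorem mp_e0 (γ : symplecticGroup (Option l) A) :
    (mp φ γ).1 *ᵥ e0 = vl φ (γ.1 *ᵥ e0) := by
  have h := mp_mulVec φ γ e0
  rw [map_e0] at h
  exact h

/-- every element is moved to the box -/
theorem cover (h : Coc φ R) {C : ℝ} {F : Set (symplecticGroup l K)}
    (hF : ∀ S, ∃ δ : symplecticGroup l A, S * mp φ δ ∈ F)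
    (g : symplecticGroup (Option l) K)
    (hg : ∃ v : Option l ⊕ Option l → A, v ≠ 0 ∧ ‖g.1 *ᵥ vl φ v‖ ≤ C) :
    ∃ γ : symplecticGroup (Option l) A,
      g * mp φ γ ∈ Phi '' (box C R F ∩ {p | p.1 (Sum.inl none) ≠ 0}) ∪ NN l K := by
  obtain ⟨v, hv0, hv⟩ := hg
  obtain ⟨a, u, ha, ⟨γ₁, hγ₁⟩, hvu⟩ := exists_orb hv0
  obtain ⟨g₁, hg₁⟩ : ∃ g₁, g₁ = g * mp φ γ₁ := ⟨_, rfl⟩
  obtain ⟨x, hx⟩ : ∃ x, x = g₁.1 *ᵥ e0 := ⟨_, rfl⟩
  have hxn : ‖x‖ ≤ C := by
    have h2 : vl φ v = φ a • vl φ u := by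
      funext i; rw [hvu]; exact map_mul φ _ _
    have h3 : x = g.1 *ᵥ vl φ u := by
      rw [hx, hg₁, mul_mulVec, mp_e0, hγ₁]
    rw [h2, Matrix.mulVec_smul, ← h3, norm_smul] at hv
    have h4 := h.disc a ha
    nlinarith [norm_nonneg x]
  by_cases hx0 : x (Sum.inl none) = 0
  · exact ⟨γ₁, Or.inr (by rw [← hg₁]; show (g₁.1 *ᵥ e0) (Sum.inl none) = 0; rw [← hx]; exact hx0)⟩
  · obtain ⟨S, b, c, hc⟩ := exists_coord' g₁ (by rw [← hx]; exact hx0)
    rw [← hx] at hc
    obtain ⟨δ, hδ⟩ := hF S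
    obtain ⟨b', hb'⟩ : ∃ b', b' = ((mp φ δ)⁻¹).1 *ᵥ b := ⟨_, rfl⟩
    choose b₀ hb₀ using fun i => h.coc (b' i)
    obtain ⟨b₁, hb₁⟩ : ∃ b₁ : l ⊕ l → A, ∀ i, b₁ i = -b₀ i := ⟨_, fun _ => rfl⟩
    obtain ⟨b₁', hb₁'⟩ : ∃ b₁' : l ⊕ l → K, b₁' = fun i => φ (b₁ i) := ⟨_, rfl⟩
    obtain ⟨c₀, hc₀⟩ := h.coc (c + om b₁' b')
    refine ⟨γ₁ * (ioS δ * heS b₁ (-c₀)), Or.inl ⟨(x, (S * mp φ δ,
      (b' + b₁', c + φ (-c₀) + om b₁' b'))), ⟨⟨?_, hδ, ?_, ?_⟩, hx0⟩, ?_⟩⟩
    · simpa using hxn
    · show b' + b₁' ∈ Metric.closedBall (0 : l ⊕ l → K) R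
      rw [mem_closedBall_zero_iff, pi_norm_le_iff_of_nonneg h.pos]
      intro j
      have h8 : b₁' j = φ (b₁ j) := by rw [hb₁']
      rw [Pi.add_apply, h8, hb₁, map_neg, ← sub_eq_add_neg]
      exact hb₀ j
    · show c + φ (-c₀) + om b₁' b' ∈ Metric.closedBall (0 : K) R
      have h5 : c + φ (-c₀) + om b₁' b' = c + om b₁' b' - φ c₀ := by
        rw [map_neg]; ring
      rw [mem_closedBall_zero_iff, h5]
      exact hc₀
    · show sec x * psi (S * mp φ δ, (b' + b₁', c + φ (-c₀) + om b₁' b')) = _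
      rw [map_mul, ← mul_assoc, ← hg₁, hc, map_mul, mp_ioS, mp_heS, psi]
      have h6 : (fun i => φ (b₁ i)) = b₁' := by rw [hb₁']
      rw [h6]
      have h7 : ioS S * heS b c * (ioS (mp φ δ) * heS b₁' (φ (-c₀))) =
          ioS (S * mp φ δ) * heS (b' + b₁') (c + φ (-c₀) + om b₁' b') := by
        rw [mul_assoc, ← mul_assoc (heS b c), heS_ioS, ← hb', mul_assoc, heS_mul, ← mul_assoc,
          ← ioS_mul]
      rw [mul_assoc, h7]

end cover

section step

variable {K : Type} [NontriviallyNormedField K] [ProperSpace K] {A : Type} [EuclideanDomain A]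
  {φ : A →+* K} {R : ℝ} {l : Type} [Fintype l] [DecidableEq l]

/-- right invariance of the Haar measure -/
theorem rightInv_of_triv {m : Type} [Fintype m] [DecidableEq m]
    [MeasurableSpace (symplecticGroup m K)] [BorelSpace (symplecticGroup m K)]
    (h : ∀ f : symplecticGroup m K →* (NNReal)ˣ, f = 1)
    (μ : Measure (symplecticGroup m K)) [IsHaarMeasure μ] : IsMulRightInvariant μ :=
  H515.rightInv_of_modChar μ fun g => H515.modChar_of_perfect h g

theorem isLattice_step (hφ : Coc φ R) (h : ∀ f : symplecticGroup (Option l) K →* (NNReal)ˣ, f = 1)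
    (hl : H515.IsLattice (spA l φ)) : H515.IsLattice (spA (Option l) φ) := by
  borelize K
  borelize ↥(symplecticGroup l K)
  borelize ↥(symplecticGroup (Option l) K)
  obtain ⟨κ, hκ⟩ : ∃ κ : Measure K, κ = addHaar := ⟨_, rfl⟩
  have hHκ : IsAddHaarMeasure κ := by rw [hκ]; infer_instance
  obtain ⟨μ, hμ⟩ : ∃ μ : Measure (symplecticGroup l K), μ = haar := ⟨_, rfl⟩
  have hH : IsHaarMeasure μ := by rw [hμ]; infer_instance
  obtain ⟨ν, hν⟩ : ∃ ν : Measure (symplecticGroup (Option l) K), ν = haar := ⟨_, rfl⟩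
  have hH' : IsHaarMeasure ν := by rw [hν]; infer_instance
  have hr := rightInv_of_triv h ν
  have hd := disc_spA (l := Option l) hφ
  obtain ⟨F, hFm, hF1, -, hF2, -⟩ := hl.exists_fdom_right μ
  obtain ⟨C, hC0, hC⟩ := exists_short κ hφ h
  refine H515.isLattice_of_cover (spA (Option l) φ) ν
    (haar_image_lt κ μ h ν (meas_box hFm) (box_lt κ μ hF1 (C := C) (R := R))) fun g => ?_
  obtain ⟨γ, hγ⟩ := cover hφ (F := F) (fun S => by
    obtain ⟨v, hv, -⟩ := hF2 S
    obtain ⟨δ, hδ⟩ := v.2
    exact ⟨δ, by rw [hδ]; exact hv⟩) g (hC g)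
  exact ⟨⟨_, ⟨γ, rfl⟩⟩, hγ⟩

theorem isLattice_empty (hφ : Coc φ R) {m : Type} [Fintype m] [DecidableEq m] [IsEmpty m] :
    H515.IsLattice (spA m φ) := by
  borelize ↥(symplecticGroup m K)
  obtain ⟨ν, hν⟩ : ∃ ν : Measure (symplecticGroup m K), ν = haar := ⟨_, rfl⟩
  have hH' : IsHaarMeasure ν := by rw [hν]; infer_instance
  have hr := rightInv_of_triv (m := m) (fun f => hom_triv_empty f) ν
  have hd := disc_spA (l := m) hφ
  have hs : Subsingleton (symplecticGroup m K) :=
    ⟨fun a b => Subtype.ext (Subsingleton.elim _ _)⟩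
  refine H515.isLattice_of_cover (spA m φ) ν (F := univ) ?_ fun g => ⟨1, trivial⟩
  exact (Set.toFinite _).isCompact.measure_lt_top

end step

section ind

variable {K : Type} [NontriviallyNormedField K] [ProperSpace K] {A : Type} [EuclideanDomain A]
  {φ : A →+* K} {R : ℝ}

theorem cont_rx {l m : Type} [Fintype l] [DecidableEq l] [Fintype m] [DecidableEq m] (e : l ≃ m) :
    Continuous (rx e : symplecticGroup m K →* symplecticGroup l K) := by
  refine cont_sp ?_
  exact Continuous.matrix_submatrix continuous_subtype_val _ _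

theorem rx_spA {l m : Type} [Fintype l] [DecidableEq l] [Fintype m] [DecidableEq m] (e : l ≃ m) :
    (spA m φ).map (rxE (R := K) e : symplecticGroup m K →* symplecticGroup l K) = spA l φ := by
  have h0 : ∀ {l m : Type} [Fintype l] [DecidableEq l] [Fintype m] [DecidableEq m] (e : l ≃ m)
      (B : symplecticGroup m A), rx e (mp φ B) = mp φ (rx e B) := by
    intro l m _ _ _ _ e B
    apply Subtype.ext
    rfl
  ext B
  constructor
  · rintro ⟨_, ⟨B, rfl⟩, rfl⟩
    exact ⟨rx e B, (h0 e B).symm⟩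
  · rintro ⟨B, rfl⟩
    refine ⟨mp φ (rx e.symm B), ⟨_, rfl⟩, ?_⟩
    show rx e (mp φ (rx e.symm B)) = _
    rw [h0]
    congr 1
    exact rx_rx e.symm B

theorem units_sq (c : (NNReal)ˣ) (h : c * c = 1) : c = 1 := by
  have h1 : (c : NNReal) * c = 1 := by
    have := congrArg Units.val h
    simpa using this
  have h2 : (c : NNReal) = 1 := by
    have h3 : ((c : NNReal) : ℝ) * ((c : NNReal) : ℝ) = 1 := by exact_mod_cast h1
    have h4 : (0 : ℝ) ≤ ((c : NNReal) : ℝ) := NNReal.coe_nonneg _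
    have h5 : ((c : NNReal) : ℝ) = 1 := by nlinarith
    exact_mod_cast h5
  exact Units.ext h2

/-- no homomorphism to the positive numbers, and `Sp_{2n}(A)` is a lattice -/
theorem main_induction (hφ : Coc φ R) (l : Type) [hF : Fintype l] [hD : DecidableEq l] :
    (∀ f : symplecticGroup l K →* (NNReal)ˣ, f = 1) ∧ H515.IsLattice (spA l φ) := by
  classical
  haveI : Infinite K := NontriviallyNormedField.infinite K
  suffices h : ∀ n : ℕ, (∀ f : symplecticGroup (Fin n) K →* (NNReal)ˣ, f = 1) ∧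
      H515.IsLattice (spA (Fin n) φ) by
    obtain ⟨h1, h2⟩ := h (Fintype.card l)
    have e : l ≃ Fin (Fintype.card l) := Fintype.equivFin l
    refine ⟨fun f => ?_, ?_⟩
    · have h3 := h1 (f.comp (rx e))
      ext B
      have h4 := DFunLike.congr_fun h3 (rx e.symm B)
      rw [MonoidHom.comp_apply] at h4
      have h5 : rx e (rx e.symm B) = B := rx_rx e.symm B
      rw [h5] at h4
      rw [h4]
      rfl
    · have h3 := h2.map_equiv (rxE e) (cont_rx e) (cont_rx e.symm)
      rwa [rx_spA] at h3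
  intro n
  induction n with
  | zero => exact ⟨fun f => hom_triv_empty f, isLattice_empty hφ⟩
  | succ n ih =>
    obtain ⟨h1, h2⟩ := ih
    have h3 : ∀ f : symplecticGroup (Option (Fin n)) K →* (NNReal)ˣ, f = 1 :=
      fun f => hom_triv_step f units_sq h1
    have h4 : H515.IsLattice (spA (Option (Fin n)) φ) := isLattice_step hφ h3 h2
    have e : Fin (n + 1) ≃ Option (Fin n) := finSuccEquiv n
    refine ⟨fun f => ?_, ?_⟩
    · have h5 := h3 (f.comp (rx e))
      ext B
      have h6 := DFunLike.congr_fun h5 (rx e.symm B)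
      rw [MonoidHom.comp_apply] at h6
      have h7 : rx e (rx e.symm B) = B := rx_rx e.symm B
      rw [h7] at h6
      rw [h6]
      rfl
    · have h5 := h4.map_equiv (rxE e) (cont_rx e) (cont_rx e.symm)
      rwa [rx_spA] at h5

/-- **`Sp_{2n}(A)` is a lattice of `Sp_{2n}(K)`** for every Euclidean ring `A`, discrete and
cocompact in the local field `K`. -/
theorem isLattice_spA (hφ : Coc φ R) (l : Type) [Fintype l] [DecidableEq l] :
    H515.IsLattice (spA l φ) :=
  (main_induction hφ l).2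

end ind

end Vale.Agent.P092.H678.P
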