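import Vale.Agent.P092.SNPT.End
import Vale.Agent.P092.H678.SLtEx
import Vale.Agent.P092.UN.StE

/-!
P092 (helper678): the conclusion for `PSL_n(F[x])`, `F` a finite field, `n ≥ 3`.
-/

namespace Vale.Agent.P092.H678

theorem superSL_poly (F : Type) [Field F] [Finite F] (n : ℕ) (hn : 3 ≤ n) :
    UN.SuperSL (Polynomial F) n :=
  UN.superAll_of (SNPT.End.finalAllK (LS F) (locK_LS F) _ (latticeK_PSLt n F hn))

end Vale.Agent.P092.H678
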