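import Vale.Agent.P092.H678.P.EuM

/-!
P092 (helper678), block [P-LAT2].  Part 3: the Haar measure of `Sp_{2n+2}(K)` in the coordinates
`g = s(g e₀) · S · (b, c)`.
-/

set_option linter.all false

open Matrix MeasureTheory MeasureTheory.Measure Set Filter Topology
open scoped ENNReal NNReal Pointwise

namespace Vale.Agent.P092.H678.P

open Vale.Agent.P092.H759 (om om_eq om_add_left om_add_right om_smul_left om_smul_right om_neg_left
  om_neg_right om_sub_left om_sub_right om_swap om_self om_zero_left om_zero_right om_single_inr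
  om_single_inl om_mulVec' tS tS_mulVec tS_conj tS_add tS_smul tS_trans mul_mulVec one_mulVec'
  inv_mulVec mulVec_inv sp_ext mp mp_mulVec e0 f0 emb prj emb_zero ioS heS ioS_mulVec
  heS_mulVec heS_mul heS_ioS ioS_mul ioS_one exists_coord sec sec_e0 exists_coord' exists_move
  mulVec_ne_zero e0_ne_zero neg1 neg1_mulVec neg1_inv om_e0 om_f0 e0_inl e0_inr
  f0_inl f0_inr heS_e0 ioS_e0 coord_inj coord_mul)

section haar

variable {l : Type} [Fintype l] [DecidableEq l] {K : Type} [NontriviallyNormedField K]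
  [ProperSpace K] [MeasurableSpace K] [BorelSpace K] (κ : Measure K) [IsAddHaarMeasure κ]
  [MeasurableSpace (symplecticGroup l K)] [BorelSpace (symplecticGroup l K)]
  [MeasurableSpace (symplecticGroup (Option l) K)] [BorelSpace (symplecticGroup (Option l) K)]
  (μ : Measure (symplecticGroup l K)) [IsHaarMeasure μ]

theorem meas_sec : Measurable (sec (l := l) (K := K)) := by
  have h1 : Continuous fun x : Option l ⊕ Option l → K => om x f0 :=
    cont_om.comp (continuous_id.prodMk continuous_const)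
  have h2 : Measurable fun x : Option l ⊕ Option l → K => (x - f0, (om x f0)⁻¹) :=
    ((continuous_id.sub continuous_const).measurable).prodMk h1.measurable.inv
  exact (cont_tS.measurable.comp h2).mul_const _

/-- the coordinates of the big group -/
noncomputable def Phi (p : (Option l ⊕ Option l → K) × HH l K) : symplecticGroup (Option l) K :=
  sec p.1 * psi p.2

theorem meas_Phi : Measurable (Phi (l := l) (K := K)) :=
  (meas_sec.comp measurable_fst).mul (cont_psi.measurable.comp measurable_snd)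

omit [MeasurableSpace K] [BorelSpace K]
  [MeasurableSpace (symplecticGroup l K)] [BorelSpace (symplecticGroup l K)]
  [MeasurableSpace (symplecticGroup (Option l) K)] [BorelSpace (symplecticGroup (Option l) K)] in
theorem Phi_e0 {p : (Option l ⊕ Option l → K) × HH l K} (hp : p.1 (Sum.inl none) ≠ 0) :
    (Phi p).1 *ᵥ e0 = p.1 := by
  rw [Phi, mul_mulVec, psi_e0, sec_e0 hp]

omit [MeasurableSpace K] [BorelSpace K]
  [MeasurableSpace (symplecticGroup l K)] [BorelSpace (symplecticGroup l K)]
  [MeasurableSpace (symplecticGroup (Option l) K)] [BorelSpace (symplecticGroup (Option l) K)] in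
theorem Phi_injOn : InjOn (Phi (l := l) (K := K)) {p | p.1 (Sum.inl none) ≠ 0} := by
  rintro ⟨x, h⟩ hx ⟨x', h'⟩ hx' he
  have h1 : x = x' := by
    have h2 := Phi_e0 hx
    have h3 := Phi_e0 hx'
    rw [he] at h2
    exact h2.symm.trans h3
  subst h1
  have h4 : psi h = psi h' := mul_left_cancel he
  rw [psi_inj h4]

omit [MeasurableSpace K] [BorelSpace K]
  [MeasurableSpace (symplecticGroup l K)] [BorelSpace (symplecticGroup l K)]
  [MeasurableSpace (symplecticGroup (Option l) K)] [BorelSpace (symplecticGroup (Option l) K)] in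
theorem Phi_surj {g : symplecticGroup (Option l) K} (hg : (g.1 *ᵥ e0) (Sum.inl none) ≠ 0) :
    ∃ h : HH l K, Phi (g.1 *ᵥ e0, h) = g := by
  obtain ⟨h, hh⟩ := psi_surj (g := (sec (g.1 *ᵥ e0))⁻¹ * g) (by
    rw [mul_mulVec]
    nth_rw 2 [← sec_e0 hg]
    rw [inv_mulVec])
  exact ⟨h, by rw [Phi, hh, mul_inv_cancel_left]⟩

/-- the measure in the coordinates -/
noncomputable def MM : Measure ((Option l ⊕ Option l → K) × HH l K) :=
  (vo (Option l ⊕ Option l) κ).prod (mH κ μ)

instance sf_mH : SigmaFinite (mH κ μ) := by unfold mH; infer_instance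
instance sf_MM : SigmaFinite (MM κ μ) := by unfold MM; infer_instance

theorem ae_coord : ∀ᵐ p ∂(MM κ μ), p.1 (Sum.inl none) ≠ 0 := by
  have h1 : ∀ᵐ x ∂(vo (Option l ⊕ Option l) κ), x (Sum.inl none) ≠ 0 := by
    rw [ae_iff]; simpa using null_coord κ (m := Option l) (Sum.inl none)
  exact Measure.quasiMeasurePreserving_fst.ae h1

variable (ht : ∀ f : symplecticGroup (Option l) K →* (NNReal)ˣ, f = 1)

include ht in
theorem ae_coord' (g : symplecticGroup (Option l) K) :
    ∀ᵐ p ∂(MM κ μ), (g.1 *ᵥ p.1) (Sum.inl none) ≠ 0 := by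
  have h1 : ∀ᵐ x ∂(vo (Option l ⊕ Option l) κ), x (Sum.inl none) ≠ 0 := by
    rw [ae_iff]; simpa using null_coord κ (m := Option l) (Sum.inl none)
  have h2 := (mp_vol κ ht g).quasiMeasurePreserving.ae h1
  exact Measure.quasiMeasurePreserving_fst.ae h2

theorem exists_iv : ∃ iv : symplecticGroup (Option l) K → HH l K, Measurable iv ∧
    ∀ h, iv (psi h) = h := by
  have h1 : MeasurableEmbedding (psi (l := l) (K := K)) :=
    cont_psi.measurable.measurableEmbedding psi_inj
  obtain ⟨iv, h2, h3⟩ := h1.exists_measurable_extend measurable_id fun _ => ⟨(1, 0, 0)⟩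
  exact ⟨iv, h2, fun h => congrFun h3 h⟩

include ht in
/-- the measure is left invariant -/
theorem left_inv (g : symplecticGroup (Option l) K) :
    ((MM κ μ).map Phi).map (g * ·) = (MM κ μ).map Phi := by
  obtain ⟨iv, hiv, hivp⟩ := exists_iv (l := l) (K := K)
  obtain ⟨η, hη⟩ : ∃ η : (Option l ⊕ Option l → K) → symplecticGroup (Option l) K,
      ∀ x, η x = (sec (g.1 *ᵥ x))⁻¹ * (g * sec x) := ⟨_, fun _ => rfl⟩
  have hηm : Measurable η := by
    have h1 : η = fun x => (sec (g.1 *ᵥ x))⁻¹ * (g * sec x) := funext hη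
    rw [h1]
    exact (meas_sec.comp (mp_vol κ ht g).measurable).inv.mul (meas_sec.const_mul g)
  have hT : MeasurePreserving (fun p : (Option l ⊕ Option l → K) × HH l K =>
      (g.1 *ᵥ p.1, Lm (iv (η p.1)) p.2)) (MM κ μ) (MM κ μ) := by
    refine (mp_vol κ ht g).skew_product (g := fun x h => Lm (iv (η x)) h) ?_
      (ae_of_all _ fun x => (mp_Lm κ μ _).map_eq)
    exact cont_Lm.measurable.comp
      (((hiv.comp hηm).comp measurable_fst).prodMk measurable_snd)
  rw [Measure.map_map (measurable_const_mul g) meas_Phi]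
  have h2 : ((fun x => g * x) ∘ Phi (l := l) (K := K)) =ᵐ[MM κ μ]
      (Phi ∘ fun p : (Option l ⊕ Option l → K) × HH l K =>
        (g.1 *ᵥ p.1, Lm (iv (η p.1)) p.2)) := by
    filter_upwards [ae_coord κ μ, ae_coord' κ μ ht g] with p hp hp'
    have h3 : (η p.1).1 *ᵥ e0 = e0 := by
      rw [hη, mul_mulVec, mul_mulVec, sec_e0 hp]
      nth_rw 2 [← sec_e0 hp']
      rw [inv_mulVec]
    obtain ⟨h', hh'⟩ := psi_surj h3
    have h4 : psi (iv (η p.1)) = η p.1 := by rw [← hh', hivp]
    show g * Phi p = Phi (g.1 *ᵥ p.1, Lm (iv (η p.1)) p.2)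
    rw [Phi, Phi, ← psi_Lm, h4, hη]
    simp only [mul_assoc, mul_inv_cancel_left]
  rw [Measure.map_congr h2, ← Measure.map_map meas_Phi hT.measurable, hT.map_eq]

include ht in
theorem isLeftInv : IsMulLeftInvariant ((MM κ μ).map (Phi (l := l) (K := K))) :=
  ⟨fun g => left_inv κ μ ht g⟩

/-- the set of the elements without coordinates -/
def NN (l : Type) [Fintype l] [DecidableEq l] (K : Type) [NontriviallyNormedField K] :
    Set (symplecticGroup (Option l) K) :=
  {g | (g.1 *ᵥ e0) (Sum.inl none) = 0}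

omit [MeasurableSpace K] [BorelSpace K]
  [MeasurableSpace (symplecticGroup l K)] [BorelSpace (symplecticGroup l K)] in
theorem meas_NN : MeasurableSet (NN l K) := by
  have h0 : Continuous fun g : symplecticGroup (Option l) K => g.1 *ᵥ e0 :=
    Continuous.matrix_mulVec continuous_subtype_val continuous_const
  have h1 : Continuous fun g : symplecticGroup (Option l) K => (g.1 *ᵥ e0) (Sum.inl none) :=
    (continuous_apply (Sum.inl none : Option l ⊕ Option l)).comp h0
  exact (isClosed_eq h1 continuous_const).measurableSet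

/-- the measure of an image is at most the measure of the set -/
theorem map_image_le {A : Set ((Option l ⊕ Option l → K) × HH l K)} (hA : MeasurableSet A) :
    (MM κ μ).map Phi (Phi '' (A ∩ {p | p.1 (Sum.inl none) ≠ 0}) ∪ NN l K) ≤ MM κ μ A := by
  have hD : MeasurableSet {p : (Option l ⊕ Option l → K) × HH l K | p.1 (Sum.inl none) ≠ 0} := by
    have h1 : Continuous fun p : (Option l ⊕ Option l → K) × HH l K => p.1 (Sum.inl none) :=
      (continuous_apply _).comp continuous_fst
    exact (isClosed_eq h1 continuous_const).measurableSet.compl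
  have h1 : MeasurableSet (Phi '' (A ∩ {p | p.1 (Sum.inl none) ≠ 0}) ∪ NN l K) :=
    ((hA.inter hD).image_of_measurable_injOn meas_Phi (Phi_injOn.mono inter_subset_right)).union
      meas_NN
  rw [Measure.map_apply meas_Phi h1]
  refine measure_mono_ae ?_
  filter_upwards [ae_coord κ μ] with p hp hp'
  rcases hp' with ⟨q, hq, hqp⟩ | hp'
  · have := Phi_injOn hq.2 hp hqp
    rw [← this]; exact hq.1
  · have h2 : ((Phi p).1 *ᵥ e0) (Sum.inl none) = 0 := hp'
    rw [Phi_e0 hp] at h2
    exact absurd h2 hp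

omit [MeasurableSpace K] [BorelSpace K]
  [MeasurableSpace (symplecticGroup l K)] [BorelSpace (symplecticGroup l K)]
  [MeasurableSpace (symplecticGroup (Option l) K)] [BorelSpace (symplecticGroup (Option l) K)] in
theorem cover_all (g : symplecticGroup (Option l) K) :
    g ∈ NN l K ∨ ∃ p : (Option l ⊕ Option l → K) × HH l K, p.1 (Sum.inl none) ≠ 0 ∧ Phi p = g := by
  by_cases hg : (g.1 *ᵥ e0) (Sum.inl none) = 0
  · exact Or.inl hg
  · obtain ⟨h, hh⟩ := Phi_surj hg
    exact Or.inr ⟨_, hg, hh⟩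

theorem sigmaFinite_map : SigmaFinite ((MM κ μ).map (Phi (l := l) (K := K))) := by
  refine ⟨⟨{
    set := fun n => Phi '' (spanningSets (MM κ μ) n ∩ {p | p.1 (Sum.inl none) ≠ 0}) ∪ NN l K
    set_mem := fun _ => trivial
    finite := fun n => (map_image_le κ μ (measurableSet_spanningSets _ n)).trans_lt
      (measure_spanningSets_lt_top _ n)
    spanning := ?_ }⟩⟩
  rw [eq_univ_iff_forall]
  intro g
  rw [mem_iUnion]
  rcases cover_all g with hg | ⟨p, hp, hpg⟩
  · exact ⟨0, Or.inr hg⟩
  · have h1 : p ∈ ⋃ n, spanningSets (MM κ μ) n := by rw [iUnion_spanningSets]; trivial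
    obtain ⟨n, hn⟩ := mem_iUnion.1 h1
    exact ⟨n, Or.inl ⟨p, ⟨hn, hp⟩, hpg⟩⟩

include ht in
/-- **The criterion**: the Haar measure of the image of a set of finite measure is finite. -/
theorem haar_image_lt (ν : Measure (symplecticGroup (Option l) K)) [IsHaarMeasure ν]
    {A : Set ((Option l ⊕ Option l → K) × HH l K)} (hA : MeasurableSet A) (hA1 : MM κ μ A < ∞) :
    ν (Phi '' (A ∩ {p | p.1 (Sum.inl none) ≠ 0}) ∪ NN l K) < ∞ := by
  have hσ := sigmaFinite_map κ μ
  have hL := isLeftInv κ μ ht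
  obtain ⟨ρ, hρ⟩ : ∃ ρ, ρ = (MM κ μ).map (Phi (l := l) (K := K)) := ⟨_, rfl⟩
  rw [← hρ] at hσ hL
  have h0 : ρ univ ≠ 0 := by
    rw [hρ, Measure.map_apply meas_Phi MeasurableSet.univ, preimage_univ, MM, mH,
      ← univ_prod_univ, Measure.prod_prod, ← univ_prod_univ, Measure.prod_prod, ← univ_prod_univ,
      Measure.prod_prod]
    refine mul_ne_zero (measure_univ_ne_zero.2 (NeZero.ne _)) (mul_ne_zero
      (measure_univ_ne_zero.2 (NeZero.ne _)) (mul_ne_zero (measure_univ_ne_zero.2 (NeZero.ne _))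
        (measure_univ_ne_zero.2 (NeZero.ne _))))
  obtain ⟨s, hs1, hs2⟩ : ∃ s, (ρ + ν) s < ∞ ∧ ρ s ≠ 0 := by
    by_contra hcon
    push Not at hcon
    refine h0 ?_
    rw [← iUnion_spanningSets (ρ + ν), measure_iUnion_null_iff]
    exact fun n => hcon _ (measure_spanningSets_lt_top _ n)
  rw [Measure.add_apply, ENNReal.add_lt_top] at hs1
  have h1 := measure_mul_measure_eq ν ρ s
    (Phi '' (A ∩ {p | p.1 (Sum.inl none) ≠ 0}) ∪ NN l K) hs2 hs1.1.ne
  have h2 : ρ (Phi '' (A ∩ {p | p.1 (Sum.inl none) ≠ 0}) ∪ NN l K) < ∞ := by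
    rw [hρ]; exact (map_image_le κ μ hA).trans_lt hA1
  have h3 : ρ s * ν (Phi '' (A ∩ {p | p.1 (Sum.inl none) ≠ 0}) ∪ NN l K) < ∞ := by
    rw [← h1]; exact ENNReal.mul_lt_top hs1.2 h2
  exact ENNReal.lt_top_of_mul_ne_top_right h3.ne hs2

end haar

end Vale.Agent.P092.H678.P
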