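import Vale.Agent.P092.H678.P.Eu
import Vale.Agent.P092.H515.LatSl

/-!
P092 (helper678), block [P-LAT2].  Part 2: the topological group `Sp_{2n}(K)`, `K` a local field;
its Haar measure in the coordinates `g = s(g e₀) · S · (b, c)`.
-/

set_option linter.all false

open Matrix MeasureTheory MeasureTheory.Measure Set Filter Topology
open scoped ENNReal NNReal Pointwise

namespace Vale.Agent.P092.H678.P

open Vale.Agent.P092.H759 (om om_eq om_add_left om_add_right om_smul_left om_smul_right om_neg_left
  om_neg_right om_sub_left om_sub_right om_swap om_self om_zero_left om_zero_right om_single_inr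
  om_single_inl om_mulVec' tS tS_mulVec tS_conj tS_add tS_smul tS_trans mul_mulVec one_mulVec'
  inv_mulVec mulVec_inv sp_ext mp mp_mulVec e0 f0 emb prj emb_zero ioS heS ioS_mulVec
  heS_mulVec heS_mul heS_ioS ioS_mul ioS_one exists_coord sec sec_e0 exists_coord' exists_move
  mulVec_ne_zero e0_ne_zero neg1 neg1_mulVec neg1_inv om_e0 om_f0 e0_inl e0_inr
  f0_inl f0_inr heS_e0 ioS_e0 coord_inj coord_mul)

section top

variable {l : Type} [Fintype l] [DecidableEq l] {K : Type} [NontriviallyNormedField K]
  [ProperSpace K]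

instance lc_mat (m : Type) [Fintype m] : LocallyCompactSpace (Matrix m m K) :=
  inferInstanceAs (LocallyCompactSpace (m → m → K))

instance sc_mat (m : Type) [Fintype m] : SecondCountableTopology (Matrix m m K) :=
  inferInstanceAs (SecondCountableTopology (m → m → K))

instance pol_mat (m : Type) [Fintype m] : PolishSpace (Matrix m m K) :=
  inferInstanceAs (PolishSpace (m → m → K))

theorem isClosed_sp : IsClosed (symplecticGroup l K : Set (Matrix (l ⊕ l) (l ⊕ l) K)) := by
  have h : (symplecticGroup l K : Set (Matrix (l ⊕ l) (l ⊕ l) K)) =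
      {A | A * J l K * Aᵀ = J l K} := by
    ext A; exact SymplecticGroup.mem_iff
  rw [h]
  exact isClosed_eq (by fun_prop) continuous_const

instance itg_sp : IsTopologicalGroup (symplecticGroup l K) where
  continuous_mul := by
    refine Continuous.subtype_mk ?_ _
    exact (continuous_subtype_val.comp continuous_fst).mul (continuous_subtype_val.comp continuous_snd)
  continuous_inv := by
    refine continuous_induced_rng.2 ?_
    have : (Subtype.val ∘ fun A : symplecticGroup l K => A⁻¹) =
        fun A : symplecticGroup l K => (-J l K) * (A.1)ᵀ * J l K := by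
      funext A; exact SymplecticGroup.coe_inv A
    rw [this]
    fun_prop

instance lc_sp : LocallyCompactSpace (symplecticGroup l K) :=
  isClosed_sp.isClosedEmbedding_subtypeVal.locallyCompactSpace

instance sc_sp : SecondCountableTopology (symplecticGroup l K) :=
  TopologicalSpace.Subtype.secondCountableTopology _

instance t2_sp : T2Space (symplecticGroup l K) :=
  inferInstanceAs (T2Space {A : Matrix (l ⊕ l) (l ⊕ l) K // A ∈ symplecticGroup l K})

instance pol_sp : PolishSpace (symplecticGroup l K) := isClosed_sp.polishSpace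

theorem cont_sp {X : Type} [TopologicalSpace X] {f : X → symplecticGroup l K}
    (h : Continuous fun x => (f x).1) : Continuous f := continuous_induced_rng.2 h

/-- a map to `Sp` is continuous if all the images of vectors are -/
theorem cont_sp' {X : Type} [TopologicalSpace X] {f : X → symplecticGroup l K}
    (h : ∀ y : l ⊕ l → K, Continuous fun x => (f x).1 *ᵥ y) : Continuous f := by
  refine cont_sp (continuous_matrix fun i j => ?_)
  have h1 : (fun x => (f x).1 i j) = fun x => ((f x).1 *ᵥ Pi.single j 1) i := by
    funext x; rw [Matrix.mulVec_single_one]; rfl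
  rw [h1]
  exact (continuous_apply i).comp (h _)

theorem cont_mulVec : Continuous fun p : symplecticGroup l K × (l ⊕ l → K) => p.1.1 *ᵥ p.2 := by
  refine Continuous.matrix_mulVec (continuous_subtype_val.comp continuous_fst) continuous_snd

theorem cont_om : Continuous fun p : (l ⊕ l → K) × (l ⊕ l → K) => om p.1 p.2 := by
  unfold om
  refine Continuous.dotProduct continuous_fst (Continuous.matrix_mulVec continuous_const continuous_snd)

theorem cont_tS : Continuous fun p : (l ⊕ l → K) × K => tS p.1 p.2 := by
  refine cont_sp' fun y => ?_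
  simp only [tS_mulVec]
  have h : Continuous fun p : (l ⊕ l → K) × K => om p.1 y :=
    cont_om.comp (continuous_fst.prodMk continuous_const)
  exact continuous_const.add ((continuous_snd.mul h).smul continuous_fst)

theorem cont_prj : Continuous (prj : (Option l ⊕ Option l → K) → (l ⊕ l → K)) :=
  continuous_pi fun i => continuous_apply _

theorem cont_emb : Continuous (emb : (l ⊕ l → K) → (Option l ⊕ Option l → K)) := by
  refine continuous_pi fun i => ?_
  rcases i with (_ | i) | (_ | i)
  · exact continuous_const
  · exact continuous_apply _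
  · exact continuous_const
  · exact continuous_apply _

theorem cont_ioS : Continuous (ioS : symplecticGroup l K → symplecticGroup (Option l) K) := by
  refine cont_sp' fun y => ?_
  simp only [ioS_mulVec]
  have h : Continuous fun S : symplecticGroup l K => S.1 *ᵥ prj y :=
    Continuous.matrix_mulVec continuous_subtype_val continuous_const
  exact continuous_const.add (cont_emb.comp h)

theorem cont_heS : Continuous fun p : (l ⊕ l → K) × K => heS p.1 p.2 := by
  refine cont_sp' fun y => ?_
  simp only [heS_mulVec]
  have h : Continuous fun p : (l ⊕ l → K) × K => om (prj y) p.1 :=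
    cont_om.comp (Continuous.prodMk continuous_const continuous_fst)
  have h2 : Continuous fun p : (l ⊕ l → K) × K =>
      p.2 • (e0 : Option l ⊕ Option l → K) + emb p.1 :=
    (continuous_snd.smul continuous_const).add (cont_emb.comp continuous_fst)
  have h3 : Continuous fun p : (l ⊕ l → K) × K =>
      y (Sum.inr none) • (p.2 • (e0 : Option l ⊕ Option l → K) + emb p.1) :=
    h2.const_smul (y (Sum.inr none))
  have h4 : Continuous fun p : (l ⊕ l → K) × K =>
      om (prj y) p.1 • (e0 : Option l ⊕ Option l → K) := h.smul continuous_const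
  exact (continuous_const.add h3).add h4

end top

section meas

variable {l : Type} [Fintype l] [DecidableEq l] {K : Type} [NontriviallyNormedField K]
  [ProperSpace K]

/-- the coordinates of the stabiliser of `e₀` -/
abbrev HH (l : Type) [Fintype l] [DecidableEq l] (K : Type) [NontriviallyNormedField K] : Type :=
  symplecticGroup l K × ((l ⊕ l → K) × K)

/-- the stabiliser of `e₀` -/
def psi (h : HH l K) : symplecticGroup (Option l) K := ioS h.1 * heS h.2.1 h.2.2

theorem cont_psi : Continuous (psi (l := l) (K := K)) :=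
  (cont_ioS.comp continuous_fst).mul (cont_heS.comp continuous_snd)

theorem psi_inj : Function.Injective (psi (l := l) (K := K)) := by
  rintro ⟨S, b, c⟩ ⟨S', b', c'⟩ h
  obtain ⟨h1, h2, h3⟩ := coord_inj h
  exact Prod.ext h1 (Prod.ext h2 h3)

theorem psi_e0 (h : HH l K) : (psi h).1 *ᵥ e0 = e0 := by
  rw [psi, mul_mulVec, heS_e0, ioS_e0]

theorem psi_surj {g : symplecticGroup (Option l) K} (hg : g.1 *ᵥ e0 = e0) :
    ∃ h : HH l K, psi h = g := by
  obtain ⟨S, b, c, h⟩ := exists_coord g hg
  exact ⟨(S, b, c), h.symm⟩

/-- left multiplication in the coordinates of the stabiliser -/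
def Lm (h₀ h : HH l K) : HH l K :=
  (h₀.1 * h.1, ((h.1⁻¹).1 *ᵥ h₀.2.1 + h.2.1,
    h₀.2.2 + h.2.2 + om h.2.1 ((h.1⁻¹).1 *ᵥ h₀.2.1)))

theorem psi_Lm (h₀ h : HH l K) : psi h₀ * psi h = psi (Lm h₀ h) := coord_mul _ _ _ _ _ _

theorem cont_Lm : Continuous fun p : HH l K × HH l K => Lm p.1 p.2 := by
  have h1 : Continuous fun p : HH l K × HH l K => (p.2.1⁻¹).1 *ᵥ p.1.2.1 :=
    Continuous.matrix_mulVec (continuous_subtype_val.comp
      (continuous_inv.comp (continuous_fst.comp continuous_snd)))
      (continuous_fst.comp (continuous_snd.comp continuous_fst))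
  have h2 : Continuous fun p : HH l K × HH l K => om p.2.2.1 ((p.2.1⁻¹).1 *ᵥ p.1.2.1) :=
    cont_om.comp ((continuous_fst.comp (continuous_snd.comp continuous_snd)).prodMk h1)
  have h3 : Continuous fun p : HH l K × HH l K => p.1.1 * p.2.1 :=
    (continuous_fst.comp continuous_fst).mul (continuous_fst.comp continuous_snd)
  have h4 : Continuous fun p : HH l K × HH l K => p.2.2.1 :=
    continuous_fst.comp (continuous_snd.comp continuous_snd)
  have h5 : Continuous fun p : HH l K × HH l K => p.1.2.2 + p.2.2.2 :=
    (continuous_snd.comp (continuous_snd.comp continuous_fst)).add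
      (continuous_snd.comp (continuous_snd.comp continuous_snd))
  exact h3.prodMk ((h1.add h4).prodMk (h5.add h2))

variable [MeasurableSpace K] [BorelSpace K] (κ : Measure K) [IsAddHaarMeasure κ]

/-- the volume of the vector space -/
noncomputable abbrev vo (m : Type) [Fintype m] (κ : Measure K) : Measure (m → K) :=
  Measure.pi fun _ => κ

variable [MeasurableSpace (symplecticGroup l K)] [BorelSpace (symplecticGroup l K)]
  (μ : Measure (symplecticGroup l K)) [IsHaarMeasure μ]

/-- the Haar measure of the stabiliser in coordinates -/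
noncomputable def mH : Measure (HH l K) := μ.prod ((vo (l ⊕ l) κ).prod κ)

theorem mp_Lm (h₀ : HH l K) : MeasurePreserving (Lm h₀) (mH κ μ) (mH κ μ) := by
  have h1 : MeasurePreserving (fun S => h₀.1 * S) μ μ := measurePreserving_mul_left μ _
  refine h1.skew_product (g := fun (S : symplecticGroup l K) (p : (l ⊕ l → K) × K) =>
    ((S⁻¹).1 *ᵥ h₀.2.1 + p.1,
    h₀.2.2 + p.2 + om p.1 ((S⁻¹).1 *ᵥ h₀.2.1))) ?_ (ae_of_all _ fun S => ?_)
  · have h2 : Continuous fun h : HH l K => Lm h₀ h :=
      cont_Lm.comp (Continuous.prodMk continuous_const continuous_id)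
    exact (continuous_snd.comp h2).measurable
  · have h2 : MeasurePreserving (fun b : l ⊕ l → K => (S⁻¹).1 *ᵥ h₀.2.1 + b) (vo (l ⊕ l) κ)
        (vo (l ⊕ l) κ) := measurePreserving_add_left (vo (l ⊕ l) κ) _
    have h3 : MeasurePreserving (fun p : (l ⊕ l → K) × K => ((S⁻¹).1 *ᵥ h₀.2.1 + p.1,
        h₀.2.2 + p.2 + om p.1 ((S⁻¹).1 *ᵥ h₀.2.1)))
        ((vo (l ⊕ l) κ).prod κ) ((vo (l ⊕ l) κ).prod κ) := by
      refine h2.skew_product (g := fun b c => h₀.2.2 + c + om b ((S⁻¹).1 *ᵥ h₀.2.1)) ?_
        (ae_of_all _ fun b => ?_)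
      · have h4 : Continuous fun p : (l ⊕ l → K) × K =>
            h₀.2.2 + p.2 + om p.1 ((S⁻¹).1 *ᵥ h₀.2.1) :=
          (continuous_const.add continuous_snd).add
            (cont_om.comp (continuous_fst.prodMk continuous_const))
        exact h4.measurable
      · have h5 : (fun c : K => h₀.2.2 + c + om b ((S⁻¹).1 *ᵥ h₀.2.1)) =
            fun c : K => (h₀.2.2 + om b ((S⁻¹).1 *ᵥ h₀.2.1)) + c := by
          funext c; ring
        rw [h5]
        exact (measurePreserving_add_left κ _).map_eq
    exact h3.map_eq

end meas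

section vol

variable {m : Type} [Fintype m] [DecidableEq m] {K : Type} [NontriviallyNormedField K]
  [ProperSpace K] [MeasurableSpace K] [BorelSpace K] (κ : Measure K) [IsAddHaarMeasure κ]

/-- the action on the vectors -/
@[reducible] def act (m : Type) [Fintype m] [DecidableEq m] (K : Type) [CommRing K] :
    DistribMulAction (symplecticGroup m K) (m ⊕ m → K) where
  smul g x := g.1 *ᵥ x
  one_smul x := one_mulVec' x
  mul_smul g h x := mul_mulVec g h x
  smul_zero g := Matrix.mulVec_zero _
  smul_add g x y := Matrix.mulVec_add _ _ _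

/-- symplectic matrices preserve the volume -/
theorem vol_image (ht : ∀ f : symplecticGroup m K →* (NNReal)ˣ, f = 1) (g : symplecticGroup m K)
    (s : Set (m ⊕ m → K)) : vo (m ⊕ m) κ ((fun x => g.1 *ᵥ x) '' s) = vo (m ⊕ m) κ s := by
  letI := act m K
  haveI : ContinuousConstSMul (symplecticGroup m K) (m ⊕ m → K) :=
    ⟨fun g => Continuous.matrix_mulVec continuous_const continuous_id⟩
  have h1 : distribHaarChar (m ⊕ m → K) g = 1 := by
    have h2 := DFunLike.congr_fun (ht (distribHaarChar (m ⊕ m → K)).toHomUnits) g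
    have h3 := congrArg Units.val h2
    rw [MonoidHom.coe_toHomUnits] at h3
    exact h3
  have h4 := distribHaarChar_mul (vo (m ⊕ m) κ) g s
  rw [h1, ENNReal.coe_one, one_mul] at h4
  exact h4.symm

theorem mp_vol (ht : ∀ f : symplecticGroup m K →* (NNReal)ˣ, f = 1) (g : symplecticGroup m K) :
    MeasurePreserving (fun x : m ⊕ m → K => g.1 *ᵥ x) (vo (m ⊕ m) κ) (vo (m ⊕ m) κ) := by
  have hm : Measurable fun x : m ⊕ m → K => g.1 *ᵥ x :=
    (Continuous.matrix_mulVec continuous_const continuous_id).measurable
  refine ⟨hm, ?_⟩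
  ext s hs
  rw [Measure.map_apply hm hs]
  have h1 : (fun x : m ⊕ m → K => g.1 *ᵥ x) ⁻¹' s = (fun x => (g⁻¹).1 *ᵥ x) '' s := by
    ext x
    constructor
    · intro hx
      exact ⟨_, hx, inv_mulVec g x⟩
    · rintro ⟨y, hy, rfl⟩
      show g.1 *ᵥ ((g⁻¹).1 *ᵥ y) ∈ s
      rw [mulVec_inv]
      exact hy
  rw [h1, vol_image κ ht]

theorem null_coord (i : m ⊕ m) : vo (m ⊕ m) κ {x : m ⊕ m → K | x i = 0} = 0 := by
  exact Measure.pi_hyperplane _ i 0

end vol

end Vale.Agent.P092.H678.P
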