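import Vale.Agent.P092.H678.P.EuQ
import Vale.Agent.P092.UN.StU

/-!
P092 (helper678): `PSp_{2n}(K)` in the letters of the classes of form groups; the example
`PSp_{2n}(F_q[x])`.
-/

set_option linter.all false

open Matrix Set Topology

namespace Vale.Agent.P092.H678.P

section form

variable {K : Type} [NontriviallyNormedField K] {q : ℕ}

/-- the indices -/
abbrev IE (q : ℕ) : Type := (Fin q ⊕ Fin q) ⊕ Empty

/-- the indices without the empty part -/
def eE (q : ℕ) : (Fin q ⊕ Fin q) ≃ IE q := (Equiv.sumEmpty (Fin q ⊕ Fin q) Empty).symm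

theorem eE_apply (x : Fin q ⊕ Fin q) : eE q x = Sum.inl x := rfl

theorem form_eq : (fromBlocks 0 1 ((-1 : K) • (1 : Matrix (Fin q) (Fin q) K)) 0) =
    -(Matrix.J (Fin q) K) := by
  rw [Matrix.J, fromBlocks_neg]
  simp

theorem isIsom_iff (A : Matrix (IE q) (IE q) K) :
    UN.IsIsom (RingHom.id K) (-1) (0 : Matrix Empty Empty K) q A ↔
      A.submatrix (eE q) (eE q) ∈ symplecticGroup (Fin q) K := by
  rw [SymplecticGroup.mem_iff, UN.IsIsom]
  have h1 : (fromBlocks (fromBlocks 0 1 ((-1 : K) • (1 : Matrix (Fin q) (Fin q) K)) 0) 0 0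
      (0 : Matrix Empty Empty K)).submatrix (eE q) (eE q) = -(Matrix.J (Fin q) K) := by
    rw [← form_eq]
    ext i j
    rfl
  have h2 : A.map (RingHom.id K) = A := by
    ext i j
    rfl
  rw [h2]
  have h3 : (A * fromBlocks (fromBlocks 0 1 ((-1 : K) • (1 : Matrix (Fin q) (Fin q) K)) 0) 0 0
      (0 : Matrix Empty Empty K) * Aᵀ).submatrix (eE q) (eE q) =
      -(A.submatrix (eE q) (eE q) * Matrix.J (Fin q) K * (A.submatrix (eE q) (eE q))ᵀ) := by
    rw [← submatrix_mul_equiv _ _ (eE q) (eE q) (eE q),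
      ← submatrix_mul_equiv _ _ (eE q) (eE q) (eE q), h1, Matrix.mul_neg, Matrix.neg_mul]
    rfl
  constructor
  · intro h
    have h4 := congrArg (fun B : Matrix (IE q) (IE q) K => B.submatrix (eE q) (eE q)) h
    simp only [h3, h1] at h4
    exact neg_injective h4
  · intro h
    have h4 : ∀ B C : Matrix (IE q) (IE q) K,
        B.submatrix (eE q) (eE q) = C.submatrix (eE q) (eE q) → B = C := by
      intro B C hBC
      ext i j
      obtain ⟨i, rfl⟩ := (eE q).surjective i
      obtain ⟨j, rfl⟩ := (eE q).surjective j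
      exact congrFun (congrFun hBC i) j
    apply h4
    rw [h3, h1, h]

/-- the group of isometries -/
def SE (K : Type) [NontriviallyNormedField K] (q : ℕ) : Subgroup (SpecialLinearGroup (IE q) K) where
  carrier := {g | g.1.submatrix (eE q) (eE q) ∈ symplecticGroup (Fin q) K}
  mul_mem' {a b} ha hb := by
    change (a * b).1.submatrix (eE q) (eE q) ∈ symplecticGroup (Fin q) K
    have h : (a * b).1.submatrix (eE q) (eE q) =
        a.1.submatrix (eE q) (eE q) * b.1.submatrix (eE q) (eE q) := by
      rw [submatrix_mul_equiv]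
      rfl
    rw [h]
    exact mul_mem ha hb
  one_mem' := by
    change (1 : Matrix (IE q) (IE q) K).submatrix (eE q) (eE q) ∈ symplecticGroup (Fin q) K
    rw [submatrix_one_equiv]
    exact one_mem _
  inv_mem' {a} ha := by
    change (a⁻¹).1.submatrix (eE q) (eE q) ∈ symplecticGroup (Fin q) K
    let x : symplecticGroup (Fin q) K := ⟨_, ha⟩
    have h1 : a.1.submatrix (eE q) (eE q) * (a⁻¹).1.submatrix (eE q) (eE q) = 1 := by
      rw [submatrix_mul_equiv]
      have : a.1 * (a⁻¹).1 = 1 := congrArg Subtype.val (mul_inv_cancel a)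
      rw [this, submatrix_one_equiv]
    have h2 : (x⁻¹).1 * a.1.submatrix (eE q) (eE q) = 1 :=
      congrArg Subtype.val (inv_mul_cancel x)
    have h3 : (a⁻¹).1.submatrix (eE q) (eE q) = (x⁻¹).1 := by
      calc (a⁻¹).1.submatrix (eE q) (eE q)
          = (x⁻¹).1 * a.1.submatrix (eE q) (eE q) * (a⁻¹).1.submatrix (eE q) (eE q) := by
            rw [h2, one_mul]
        _ = (x⁻¹).1 := by rw [mul_assoc, h1, mul_one]
    rw [h3]
    exact (x⁻¹).2

theorem mem_SE (g : SpecialLinearGroup (IE q) K) : g ∈ SE K q ↔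
    UN.IsIsom (RingHom.id K) (-1) (0 : Matrix Empty Empty K) q g.1 := (isIsom_iff g.1).symm

theorem det_ext (h : symplecticGroup (Fin q) K) :
    (h.1.submatrix (eE q).symm (eE q).symm).det = 1 := by
  rw [det_submatrix_equiv_self]
  exact SymplecticGroup.det_eq_one h.2

theorem sub_sub (B : Matrix (Fin q ⊕ Fin q) (Fin q ⊕ Fin q) K) :
    (B.submatrix (eE q).symm (eE q).symm).submatrix (eE q) (eE q) = B := by
  rw [submatrix_submatrix, Equiv.symm_comp_self, submatrix_id_id]

theorem sub_sub' (B : Matrix (IE q) (IE q) K) :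
    (B.submatrix (eE q) (eE q)).submatrix (eE q).symm (eE q).symm = B := by
  rw [submatrix_submatrix, Equiv.self_comp_symm, submatrix_id_id]

/-- `S ≃ Sp_{2q}(K)` -/
def isoSE (K : Type) [NontriviallyNormedField K] (q : ℕ) : SE K q ≃* symplecticGroup (Fin q) K where
  toFun g := ⟨g.1.1.submatrix (eE q) (eE q), g.2⟩
  invFun h := ⟨⟨h.1.submatrix (eE q).symm (eE q).symm, det_ext h⟩, by
    change (h.1.submatrix (eE q).symm (eE q).symm).submatrix (eE q) (eE q) ∈ symplecticGroup (Fin q) K
    rw [sub_sub]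
    exact h.2⟩
  left_inv g := Subtype.ext (Subtype.ext (sub_sub' g.1.1))
  right_inv h := Subtype.ext (sub_sub h.1)
  map_mul' a b := Subtype.ext (by
    change (a.1.1 * b.1.1).submatrix (eE q) (eE q) = a.1.1.submatrix (eE q) (eE q) *
      b.1.1.submatrix (eE q) (eE q)
    rw [submatrix_mul_equiv])

theorem continuous_isoSE : Continuous (isoSE K q) := by
  have h0 : Continuous fun g : SE K q => g.1 := continuous_subtype_val
  have h1 : Continuous fun g : SpecialLinearGroup (IE q) K => g.1 := continuous_subtype_val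
  have h2 : Continuous fun g : SE K q => g.1.1 := h1.comp h0
  have h3 : Continuous fun g : SE K q => g.1.1.submatrix (eE q) (eE q) :=
    h2.matrix_submatrix _ _
  exact Continuous.subtype_mk h3 _

theorem continuous_isoSE_symm : Continuous (isoSE K q).symm := by
  have h1 : Continuous fun h : symplecticGroup (Fin q) K =>
      (h.1.submatrix (eE q).symm (eE q).symm : Matrix (IE q) (IE q) K) :=
    continuous_subtype_val.matrix_submatrix _ _
  have h2 : Continuous fun h : symplecticGroup (Fin q) K =>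
      (⟨h.1.submatrix (eE q).symm (eE q).symm, det_ext h⟩ : SpecialLinearGroup (IE q) K) :=
    Continuous.subtype_mk h1 _
  exact Continuous.subtype_mk h2 _

/-- **`PSp_{2q}(K)` is the quotient by the centre of the group of isometries of determinant one of the
sum of `q` hyperbolic planes of sign `-1`.** -/
theorem quoS_psp (K : Type) [NontriviallyNormedField K] (q : ℕ) :
    UN.QuoS (SE K q) (PSp (Fin q) K) := by
  let h : SE K q ≃ₜ symplecticGroup (Fin q) K :=
    { toEquiv := (isoSE K q).toEquiv
      continuous_toFun := continuous_isoSE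
      continuous_invFun := continuous_isoSE_symm }
  refine ⟨(H259.pq (symplecticGroup (Fin q) K)).comp (isoSE K q).toMonoidHom, ?_, ?_⟩
  · have h1 : IsQuotientMap (H259.pq (symplecticGroup (Fin q) K)) :=
      QuotientGroup.isQuotientMap_mk _
    exact h1.comp h.isQuotientMap
  · intro x hx
    have h1 : (QuotientGroup.mk (isoSE K q x) : PSp (Fin q) K) = 1 := hx
    rw [QuotientGroup.eq_one_iff, Subgroup.mem_center_iff] at h1
    rw [Subgroup.mem_center_iff]
    intro y
    apply (isoSE K q).injective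
    rw [map_mul, map_mul]
    exact h1 _

theorem isAn_empty (K : Type) [NontriviallyNormedField K] (σ : K → K) (ε : K) :
    UN.IsAn σ ε (0 : Matrix Empty Empty K) :=
  ⟨fun i => i.elim, fun v hv => (hv (Subsingleton.elim _ _)).elim⟩

/-- `PSp_{2q}(K)`, `K` non-archimedean of characteristic `≠ 2`, is of the class `TypeU`. -/
theorem typeU_psp (K : Type) [NontriviallyNormedField K] [ProperSpace K] [IsUltrametricDist K]
    (h2 : (2 : K) ≠ 0) (q : ℕ) (hq : 2 ≤ q) : UN.TypeU (PSp (Fin q) K) :=
  ⟨K, inferInstance, RingHom.id K, -1, Empty, inferInstance, inferInstance, 0, q, SE K q,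
    inferInstance, inferInstance, continuous_id, fun _ => rfl, by ring, rfl, isAn_empty K _ _, hq,
    mem_SE, Or.inr ⟨rfl, inferInstance⟩, Or.inl h2, quoS_psp K q⟩

end form

section ex

/-- **`PSp_{2n}(F_q[x])`, `n ≥ 2`, `q` odd, is an ICC lattice of `PSp_{2n}(F_q((1/x)))`.** -/
theorem latticeU_poly (F : Type) [Field F] [Finite F] (h2 : (2 : F) ≠ 0) (n : ℕ) (hn : 2 ≤ n) :
    UN.LatticeU (symplecticGroup (Fin n) (Polynomial F) ⧸
      Subgroup.center (symplecticGroup (Fin n) (Polynomial F))) := by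
  obtain ⟨h3, h4, h5⟩ := psp_A (Fin n) (coc_poly F) (two_LS h2)
  exact ⟨h3, PSp (Fin n) (LS F), inferInstance, inferInstance, psp (Fin n) (coc_poly F) (two_LS h2),
    typeU_psp _ (two_LS h2) n hn, h4, h5⟩

end ex

end Vale.Agent.P092.H678.P
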